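import Mathlib

/-! Row 205: elementary classification of the fixed points on `S² × S²`.
`σ² = 1 + τ²`, `T = τ σ`, first rotation about `e₁`, second about `e₂`. -/

set_option autoImplicit false

namespace Crest.Agent.R205

theorem alg_classify (τ σ T : ℝ) (hτ : 0 < τ) (hσ2 : σ ^ 2 = 1 + τ ^ 2)
    (hT : T = τ * σ)
    (X1 X2 X3 Y1 Y2 Y3 v1 v2 v3 : ℝ)
    (hv1 : X1 + Y1 = 2 * v1) (hv2 : X2 + Y2 = 2 * v2) (hv3 : X3 + Y3 = 2 * v3)
    (a1 : (T * v2) * X3 - (T * v3) * X2 = 0)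
    (a2 : (T * v3) * X1 - (T * v1 + τ) * X3 = 0)
    (a3 : (T * v1 + τ) * X2 - (T * v2) * X1 = 0)
    (b1 : (T * v2 + τ) * Y3 - (T * v3) * Y2 = 0)
    (b2 : (T * v3) * Y1 - (T * v1) * Y3 = 0)
    (b3 : (T * v1) * Y2 - (T * v2 + τ) * Y1 = 0)
    (n1 : X1 ^ 2 + X2 ^ 2 + X3 ^ 2 + T ^ 2 * ((v2 * X3 - v3 * X2) ^ 2 + (v3 * X1 - v1 * X3) ^ 2
      + (v1 * X2 - v2 * X1) ^ 2) = 4)
    (n2 : Y1 ^ 2 + Y2 ^ 2 + Y3 ^ 2 + T ^ 2 * ((v2 * Y3 - v3 * Y2) ^ 2 + (v3 * Y1 - v1 * Y3) ^ 2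
      + (v1 * Y2 - v2 * Y1) ^ 2) = 4) :
    X3 = 0 ∧ Y3 = 0 ∧ X2 = Y1 ∧
      ((σ * X2 = -2 ∧ X1 = 0 ∧ Y2 = 0) ∨
        ((1 + σ ^ 2) * X2 = 2 * σ ∧ X1 = Y2 ∧ (1 + σ ^ 2) ^ 2 * X1 ^ 2 = 4 * (1 + 2 * σ ^ 2))) := by
  have hτ0 : τ ≠ 0 := hτ.ne'
  have hX3 : X3 = 0 := by
    have h : τ * X3 = 0 := by linear_combination -a2 - b2 + T * v3 * hv1 - T * v1 * hv3
    exact (mul_eq_zero.mp h).resolve_left hτ0
  have hY3 : Y3 = 0 := by
    have h : τ * Y3 = 0 := by linear_combination a1 + b1 - T * v2 * hv3 + T * v3 * hv2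
    exact (mul_eq_zero.mp h).resolve_left hτ0
  have hv30 : v3 = 0 := by rw [hX3, hY3] at hv3; linarith
  have hk : X2 = Y1 := by
    have h : τ * (X2 - Y1) = 0 := by
      linear_combination a3 + b3 - T * v1 * hv2 + T * v2 * hv1
    have := (mul_eq_zero.mp h).resolve_left hτ0
    linarith
  subst hX3 hY3 hv30 hk
  have hTD : T * (v1 * X2 - v2 * X1) = - (τ * X2) := by linear_combination a3
  have hTD' : T * (v1 * Y2 - v2 * X2) = τ * X2 := by linear_combination b3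
  have n1' : X1 ^ 2 + (1 + τ ^ 2) * X2 ^ 2 = 4 := by
    have : T ^ 2 * (v1 * X2 - v2 * X1) ^ 2 = τ ^ 2 * X2 ^ 2 := by
      rw [← mul_pow, hTD]; ring
    linear_combination n1 - this
  have n2' : Y2 ^ 2 + (1 + τ ^ 2) * X2 ^ 2 = 4 := by
    have : T ^ 2 * (v1 * Y2 - v2 * X2) ^ 2 = τ ^ 2 * X2 ^ 2 := by
      rw [← mul_pow, hTD']; ring
    linear_combination n2 - this
  have hsq : (X1 - Y2) * (X1 + Y2) = 0 := by linear_combination n1' - n2'
  have key : T * (X2 ^ 2 - X1 * Y2) = - (2 * τ * X2) := by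
    linear_combination 2 * hTD + T * X2 * hv1 - T * X1 * hv2
  have key' : σ * (X2 ^ 2 - X1 * Y2) = - (2 * X2) := by
    have : τ * (σ * (X2 ^ 2 - X1 * Y2) + 2 * X2) = 0 := by
      linear_combination key - (X2 ^ 2 - X1 * Y2) * hT
    have := (mul_eq_zero.mp this).resolve_left hτ0
    linarith
  refine ⟨rfl, rfl, rfl, ?_⟩
  have n1'' : X1 ^ 2 + σ ^ 2 * X2 ^ 2 = 4 := by rw [hσ2]; linarith
  rcases mul_eq_zero.mp hsq with h | h
  · have hY : Y2 = X1 := by linarith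
    subst hY
    have hp : (σ * X2 + 2) * ((1 + σ ^ 2) * X2 - 2 * σ) = 0 := by
      linear_combination key' + σ * n1''
    rcases mul_eq_zero.mp hp with h1 | h1
    · left
      have hk : σ * X2 = -2 := by linarith
      have h0 : Y2 = 0 := by
        have : Y2 ^ 2 = 0 := by
          linear_combination n1'' - (σ * X2 - 2) * hk
        exact pow_eq_zero_iff (two_ne_zero) |>.mp this
      exact ⟨hk, h0, h0⟩
    · right
      have hk : (1 + σ ^ 2) * X2 = 2 * σ := by linarith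
      refine ⟨hk, rfl, ?_⟩
      linear_combination (1 + σ ^ 2) ^ 2 * n1'' - σ ^ 2 * ((1 + σ ^ 2) * X2 + 2 * σ) * hk
  · have hY : Y2 = - X1 := by linarith
    subst hY
    left
    have hp : (σ * X2 + 2) * (τ ^ 2 * X2 - 2 * σ) = 0 := by
      linear_combination -key' + σ * n1'' - (σ * X2 ^ 2 + 2 * X2) * hσ2
    rcases mul_eq_zero.mp hp with h1 | h1
    · have hk : σ * X2 = -2 := by linarith
      have h0 : X1 = 0 := by
        have : X1 ^ 2 = 0 := by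
          linear_combination n1'' - (σ * X2 - 2) * hk
        exact pow_eq_zero_iff (two_ne_zero) |>.mp this
      exact ⟨hk, h0, by rw [h0]; simp⟩
    · exfalso
      have hk : τ ^ 2 * X2 = 2 * σ := by linarith
      have h2 : τ ^ 4 * (σ ^ 2 * X2 ^ 2) = 4 * (1 + τ ^ 2) ^ 2 := by
        rw [← hσ2]
        linear_combination σ ^ 2 * (τ ^ 2 * X2 + 2 * σ) * hk
      have h4 : σ ^ 2 * X2 ^ 2 ≤ 4 := by linarith [sq_nonneg X1]
      have h6 : τ ^ 4 * (σ ^ 2 * X2 ^ 2) ≤ τ ^ 4 * 4 := by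
        apply mul_le_mul_of_nonneg_left h4; positivity
      rw [h2] at h6
      nlinarith [h6, mul_pos hτ hτ]

end Crest.Agent.R205
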