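import Mathlib
import Crest.Prelude.Def_QuadricHamiltonian

/-! Operators on `ℂ⁵` (left and right quaternion multiplications on the first four coordinates),
their moment functions and the rotations they generate. -/

set_option autoImplicit false

namespace Crest.Agent.R205.Arc

open Crest.GeometryTopology.Quadric Complex

/-- Complex 5-space. -/
abbrev V := Fin 5 → ℂ

/-- Projection on the first four coordinates. -/
noncomputable def P : V →L[ℂ] V := LinearMap.toContinuousLinearMap
  { toFun := fun z => ![z 0, z 1, z 2, z 3, 0]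
    map_add' := by intro x y; ext i; fin_cases i <;> simp
    map_smul' := by intro c x; ext i; fin_cases i <;> simp }

noncomputable def Li : V →L[ℂ] V := LinearMap.toContinuousLinearMap
  { toFun := fun z => ![-z 1, z 0, -z 3, z 2, 0]
    map_add' := by intro x y; ext i; fin_cases i <;> simp <;> ring
    map_smul' := by intro c x; ext i; fin_cases i <;> simp }

noncomputable def Lj : V →L[ℂ] V := LinearMap.toContinuousLinearMap
  { toFun := fun z => ![-z 2, z 3, z 0, -z 1, 0]
    map_add' := by intro x y; ext i; fin_cases i <;> simp <;> ring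
    map_smul' := by intro c x; ext i; fin_cases i <;> simp }

noncomputable def Lk : V →L[ℂ] V := LinearMap.toContinuousLinearMap
  { toFun := fun z => ![-z 3, -z 2, z 1, z 0, 0]
    map_add' := by intro x y; ext i; fin_cases i <;> simp <;> ring
    map_smul' := by intro c x; ext i; fin_cases i <;> simp }

noncomputable def Ri : V →L[ℂ] V := LinearMap.toContinuousLinearMap
  { toFun := fun z => ![-z 1, z 0, z 3, -z 2, 0]
    map_add' := by intro x y; ext i; fin_cases i <;> simp <;> ring
    map_smul' := by intro c x; ext i; fin_cases i <;> simp }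

noncomputable def Rj : V →L[ℂ] V := LinearMap.toContinuousLinearMap
  { toFun := fun z => ![-z 2, -z 3, z 0, z 1, 0]
    map_add' := by intro x y; ext i; fin_cases i <;> simp <;> ring
    map_smul' := by intro c x; ext i; fin_cases i <;> simp }

noncomputable def Rk : V →L[ℂ] V := LinearMap.toContinuousLinearMap
  { toFun := fun z => ![-z 3, z 2, -z 1, z 0, 0]
    map_add' := by intro x y; ext i; fin_cases i <;> simp <;> ring
    map_smul' := by intro c x; ext i; fin_cases i <;> simp }

theorem P_apply (z : V) : P z = ![z 0, z 1, z 2, z 3, 0] := rfl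
theorem Li_apply (z : V) : Li z = ![-z 1, z 0, -z 3, z 2, 0] := rfl
theorem Lj_apply (z : V) : Lj z = ![-z 2, z 3, z 0, -z 1, 0] := rfl
theorem Lk_apply (z : V) : Lk z = ![-z 3, -z 2, z 1, z 0, 0] := rfl
theorem Ri_apply (z : V) : Ri z = ![-z 1, z 0, z 3, -z 2, 0] := rfl
theorem Rj_apply (z : V) : Rj z = ![-z 2, -z 3, z 0, z 1, 0] := rfl
theorem Rk_apply (z : V) : Rk z = ![-z 3, z 2, -z 1, z 0, 0] := rfl

/-- The bilinear form. -/
def bil (z w : V) : ℂ := ∑ j, z j * w j

theorem herm_add_left (a b w : V) : herm (a + b) w = herm a w + herm b w := by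
  simp [herm, Fin.sum_univ_five]; ring
theorem herm_add_right (w a b : V) : herm w (a + b) = herm w a + herm w b := by
  simp [herm, Fin.sum_univ_five]; ring
theorem herm_neg_left (a w : V) : herm (-a) w = - herm a w := by
  simp [herm]
theorem herm_neg_right (a w : V) : herm w (-a) = - herm w a := by
  simp [herm]
theorem herm_rsmul_left (r : ℝ) (a w : V) : herm (r • a) w = r * herm a w := by
  simp [herm, Fin.sum_univ_five]; ring
theorem herm_rsmul_right (r : ℝ) (a w : V) : herm w (r • a) = r * herm w a := by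
  simp [herm, Fin.sum_univ_five]; ring
theorem herm_smul_smul (c : ℂ) (a w : V) : herm (c • a) (c • w) = (‖c‖ ^ 2 : ℝ) * herm a w := by
  have h : starRingEnd ℂ c * c = ((‖c‖ ^ 2 : ℝ) : ℂ) := by
    rw [← Complex.normSq_eq_norm_sq, mul_comm, Complex.mul_conj]
  simp only [herm, Fin.sum_univ_five, Pi.smul_apply, smul_eq_mul, map_mul]
  rw [← h]; ring

theorem bil_add_left (a b w : V) : bil (a + b) w = bil a w + bil b w := by
  simp [bil, Fin.sum_univ_five]; ring
theorem bil_add_right (w a b : V) : bil w (a + b) = bil w a + bil w b := by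
  simp [bil, Fin.sum_univ_five]; ring
theorem bil_neg_right (a w : V) : bil w (-a) = - bil w a := by
  simp [bil]
theorem bil_rsmul_left (r : ℝ) (a w : V) : bil (r • a) w = r * bil a w := by
  simp [bil, Fin.sum_univ_five]; ring
theorem bil_rsmul_right (r : ℝ) (a w : V) : bil w (r • a) = r * bil w a := by
  simp [bil, Fin.sum_univ_five]; ring

/-- Real antisymmetric operators squaring to `-P`. -/
structure Gen (E : V →L[ℂ] V) : Prop where
  EE : ∀ z, E (E z) = - P z
  PE : ∀ z, P (E z) = E z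
  EP : ∀ z, E (P z) = E z
  h : ∀ z w, herm (E z) w = - herm z (E w)
  b : ∀ z w, bil (E z) w = - bil z (E w)
  four : ∀ z, E z 4 = 0

theorem genLi : Gen Li := by
  refine ⟨?_, ?_, ?_, ?_, ?_, ?_⟩ <;> intro z
  · ext i; fin_cases i <;> simp [Li_apply, P_apply]
  · ext i; fin_cases i <;> simp [Li_apply, P_apply]
  · ext i; fin_cases i <;> simp [Li_apply, P_apply]
  · intro w; simp [herm, Fin.sum_univ_five, Li_apply]; ring
  · intro w; simp [bil, Fin.sum_univ_five, Li_apply]; ring
  · simp [Li_apply]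

theorem genLj : Gen Lj := by
  refine ⟨?_, ?_, ?_, ?_, ?_, ?_⟩ <;> intro z
  · ext i; fin_cases i <;> simp [Lj_apply, P_apply]
  · ext i; fin_cases i <;> simp [Lj_apply, P_apply]
  · ext i; fin_cases i <;> simp [Lj_apply, P_apply]
  · intro w; simp [herm, Fin.sum_univ_five, Lj_apply]; ring
  · intro w; simp [bil, Fin.sum_univ_five, Lj_apply]; ring
  · simp [Lj_apply]

theorem genLk : Gen Lk := by
  refine ⟨?_, ?_, ?_, ?_, ?_, ?_⟩ <;> intro z
  · ext i; fin_cases i <;> simp [Lk_apply, P_apply]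
  · ext i; fin_cases i <;> simp [Lk_apply, P_apply]
  · ext i; fin_cases i <;> simp [Lk_apply, P_apply]
  · intro w; simp [herm, Fin.sum_univ_five, Lk_apply]; ring
  · intro w; simp [bil, Fin.sum_univ_five, Lk_apply]; ring
  · simp [Lk_apply]

theorem genRi : Gen Ri := by
  refine ⟨?_, ?_, ?_, ?_, ?_, ?_⟩ <;> intro z
  · ext i; fin_cases i <;> simp [Ri_apply, P_apply]
  · ext i; fin_cases i <;> simp [Ri_apply, P_apply]
  · ext i; fin_cases i <;> simp [Ri_apply, P_apply]
  · intro w; simp [herm, Fin.sum_univ_five, Ri_apply]; ring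
  · intro w; simp [bil, Fin.sum_univ_five, Ri_apply]; ring
  · simp [Ri_apply]

theorem genRj : Gen Rj := by
  refine ⟨?_, ?_, ?_, ?_, ?_, ?_⟩ <;> intro z
  · ext i; fin_cases i <;> simp [Rj_apply, P_apply]
  · ext i; fin_cases i <;> simp [Rj_apply, P_apply]
  · ext i; fin_cases i <;> simp [Rj_apply, P_apply]
  · intro w; simp [herm, Fin.sum_univ_five, Rj_apply]; ring
  · intro w; simp [bil, Fin.sum_univ_five, Rj_apply]; ring
  · simp [Rj_apply]

theorem genRk : Gen Rk := by
  refine ⟨?_, ?_, ?_, ?_, ?_, ?_⟩ <;> intro z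
  · ext i; fin_cases i <;> simp [Rk_apply, P_apply]
  · ext i; fin_cases i <;> simp [Rk_apply, P_apply]
  · ext i; fin_cases i <;> simp [Rk_apply, P_apply]
  · intro w; simp [herm, Fin.sum_univ_five, Rk_apply]; ring
  · intro w; simp [bil, Fin.sum_univ_five, Rk_apply]; ring
  · simp [Rk_apply]

theorem PP (z : V) : P (P z) = P z := by
  ext i; fin_cases i <;> simp [P_apply]

theorem hP (z w : V) : herm (P z) w = herm z (P w) := by
  simp [herm, Fin.sum_univ_five, P_apply]

theorem bP (z w : V) : bil (P z) w = bil z (P w) := by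
  simp [bil, Fin.sum_univ_five, P_apply]

/-- The rotation by the angle `θ` generated by `E`. -/
noncomputable def rot (E : V →L[ℂ] V) (θ : ℝ) (z : V) : V :=
  z + (Real.cos θ - 1) • P z + Real.sin θ • E z

theorem E_rsmul (E : V →L[ℂ] V) (r : ℝ) (z : V) : E (r • z) = r • E z := by
  rw [← Complex.coe_smul, map_smul, Complex.coe_smul]

theorem rot_zero (E : V →L[ℂ] V) (z : V) : rot E 0 z = z := by
  simp [rot]

theorem rot_smul (E : V →L[ℂ] V) (θ : ℝ) (c : ℂ) (z : V) : rot E θ (c • z) = c • rot E θ z := by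
  simp only [rot, map_smul, smul_add]
  rw [smul_comm c (Real.cos θ - 1) (P z), smul_comm c (Real.sin θ) (E z)]

theorem P_four (z : V) : P z 4 = 0 := rfl

theorem rot_four {E : V →L[ℂ] V} (hE : Gen E) (θ : ℝ) (z : V) : rot E θ z 4 = z 4 := by
  simp only [rot, Pi.add_apply, Pi.smul_apply, hE.four, P_four, smul_zero, add_zero]

theorem herm_rot {E : V →L[ℂ] V} (hE : Gen E) (θ : ℝ) (z w : V) :
    herm (rot E θ z) (rot E θ w) = herm z w := by
  have h1 : (Real.cos θ : ℂ) ^ 2 + (Real.sin θ : ℂ) ^ 2 = 1 := by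
    norm_cast; exact Real.cos_sq_add_sin_sq θ
  simp only [rot, herm_add_left, herm_add_right, herm_rsmul_left, herm_rsmul_right, hP, PP,
    hE.PE, hE.EP, hE.h, hE.EE, herm_neg_right]
  push_cast at *
  linear_combination (herm z (P w)) * h1

theorem bil_rot {E : V →L[ℂ] V} (hE : Gen E) (θ : ℝ) (z w : V) :
    bil (rot E θ z) (rot E θ w) = bil z w := by
  have h1 : (Real.cos θ : ℂ) ^ 2 + (Real.sin θ : ℂ) ^ 2 = 1 := by
    norm_cast; exact Real.cos_sq_add_sin_sq θ
  simp only [rot, bil_add_left, bil_add_right, bil_rsmul_left, bil_rsmul_right, bP, PP,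
    hE.PE, hE.EP, hE.b, hE.EE, bil_neg_right]
  push_cast at *
  linear_combination (bil z (P w)) * h1

theorem rot_mem {E : V →L[ℂ] V} (hE : Gen E) (θ : ℝ) {z : V} (hz : z ∈ unitCone) :
    rot E θ z ∈ unitCone := by
  obtain ⟨h1, h2⟩ := hz
  refine ⟨by rw [herm_rot hE, h1], ?_⟩
  have h3 : ∀ x : V, ∑ j, x j ^ 2 = bil x x := by
    intro x; simp [bil, pow_two]
  rw [h3] at h2 ⊢
  rw [bil_rot hE, h2]

theorem rot_neg_rot {E : V →L[ℂ] V} (hE : Gen E) (θ : ℝ) (z : V) :
    rot E (-θ) (rot E θ z) = z := by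
  have h1 := Real.cos_sq_add_sin_sq θ
  simp only [rot, map_add, E_rsmul, PP, hE.PE, hE.EP, hE.EE, Real.cos_neg, Real.sin_neg,
    smul_add, smul_smul, smul_neg]
  ext j
  simp only [Pi.add_apply, Pi.smul_apply, Complex.real_smul, Pi.neg_apply]
  have h2 : (Real.cos θ : ℂ) ^ 2 + (Real.sin θ : ℂ) ^ 2 = 1 := by exact_mod_cast h1
  push_cast at *
  linear_combination (P z j) * h2

theorem rot_comm {E F : V →L[ℂ] V} (hE : Gen E) (hF : Gen F) (hEF : ∀ z, E (F z) = F (E z))
    (θ η : ℝ) (z : V) : rot E θ (rot F η z) = rot F η (rot E θ z) := by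
  simp only [rot, map_add, E_rsmul, PP, hE.PE, hE.EP, hF.PE, hF.EP, hEF,
    smul_add, smul_smul]
  ext j
  simp only [Pi.add_apply, Pi.smul_apply, Complex.real_smul]
  push_cast
  ring

/-- The moment function of `G`. -/
noncomputable def mom (G : V →L[ℂ] V) (z : V) : ℝ := - (herm z (G z)).im

theorem mom_smul (G : V →L[ℂ] V) {c : ℂ} (hc : ‖c‖ = 1) (z : V) : mom G (c • z) = mom G z := by
  simp only [mom, map_smul, herm_smul_smul, hc]; simp

theorem mom_neg_op (G : V →L[ℂ] V) (z : V) : mom (-G) z = - mom G z := by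
  simp [mom, herm_neg_right]

/-- moment functions of operators commuting with the generator are conserved -/
theorem mom_rot_comm {E G : V →L[ℂ] V} (hE : Gen E) (hG : Gen G)
    (hEG : ∀ z, E (G z) = G (E z)) (θ : ℝ) (z : V) : mom G (rot E θ z) = mom G z := by
  have key : herm (rot E θ z) (G (rot E θ z)) = herm z (G z) := by
    have h1 : G (rot E θ z) = rot E θ (G z) := by
      simp only [rot, map_add, E_rsmul, hG.EP, hG.PE, hEG]
    rw [h1, herm_rot hE]
  simp [mom, key]

/-- moment functions of operators anticommuting with the generator rotate by the double angle -/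
theorem mom_rot_anti {E G K : V →L[ℂ] V} (hE : Gen E) (hG : Gen G)
    (hGE : ∀ z, G (E z) = K z) (hEG : ∀ z, E (G z) = - K z) (θ : ℝ) (z : V) :
    mom G (rot E θ z) = Real.cos (2 * θ) * mom G z + Real.sin (2 * θ) * mom K z := by
  have hPK : ∀ z, P (K z) = K z := by
    intro z; rw [← hGE, hG.PE]
  have hEK : ∀ z, E (K z) = G z := by
    intro z
    rw [← hGE, hEG, ← hGE, hE.EE, map_neg, hG.EP, neg_neg]
  have key : herm (rot E θ z) (G (rot E θ z)) =
      (Real.cos (2 * θ) : ℂ) * herm z (G z) + (Real.sin (2 * θ) : ℂ) * herm z (K z) := by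
    rw [Real.cos_two_mul, Real.sin_two_mul]
    have h2 : (Real.sin θ : ℂ) ^ 2 = 1 - (Real.cos θ : ℂ) ^ 2 := by
      rw [eq_sub_iff_add_eq]; exact_mod_cast Real.sin_sq_add_cos_sq θ
    simp only [rot, map_add, E_rsmul, herm_add_left, herm_add_right, herm_rsmul_left,
      herm_rsmul_right, hP, hE.h, herm_neg_right, hG.EP, hG.PE, hGE, hEG, hPK, hEK]
    push_cast at *
    linear_combination (-(herm z (G z))) * h2
  simp only [mom, key]
  simp only [Complex.add_im, Complex.im_ofReal_mul]
  ring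

/-! relations -/

theorem LjRi (z : V) : Lj (Ri z) = Ri (Lj z) := by
  ext i; fin_cases i <;> simp [Lj_apply, Ri_apply]
theorem LiRj (z : V) : Li (Rj z) = Rj (Li z) := by
  ext i; fin_cases i <;> simp [Li_apply, Rj_apply]
theorem LiRi (z : V) : Li (Ri z) = Ri (Li z) := by
  ext i; fin_cases i <;> simp [Li_apply, Ri_apply]
theorem LjRj (z : V) : Lj (Rj z) = Rj (Lj z) := by
  ext i; fin_cases i <;> simp [Lj_apply, Rj_apply]
theorem LkRi (z : V) : Lk (Ri z) = Ri (Lk z) := by
  ext i; fin_cases i <;> simp [Lk_apply, Ri_apply]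
theorem LkRj (z : V) : Lk (Rj z) = Rj (Lk z) := by
  ext i; fin_cases i <;> simp [Lk_apply, Rj_apply]
theorem LiRk (z : V) : Li (Rk z) = Rk (Li z) := by
  ext i; fin_cases i <;> simp [Li_apply, Rk_apply]
theorem LjRk (z : V) : Lj (Rk z) = Rk (Lj z) := by
  ext i; fin_cases i <;> simp [Lj_apply, Rk_apply]
theorem LiLj (z : V) : Li (Lj z) = Lk z := by
  ext i; fin_cases i <;> simp [Li_apply, Lj_apply, Lk_apply]
theorem LjLi (z : V) : Lj (Li z) = - Lk z := by
  ext i; fin_cases i <;> simp [Li_apply, Lj_apply, Lk_apply]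
theorem LjLk (z : V) : Lj (Lk z) = Li z := by
  ext i; fin_cases i <;> simp [Li_apply, Lj_apply, Lk_apply]
theorem LkLj (z : V) : Lk (Lj z) = - Li z := by
  ext i; fin_cases i <;> simp [Li_apply, Lj_apply, Lk_apply]
theorem LkLi (z : V) : Lk (Li z) = Lj z := by
  ext i; fin_cases i <;> simp [Li_apply, Lj_apply, Lk_apply]
theorem LiLk (z : V) : Li (Lk z) = - Lj z := by
  ext i; fin_cases i <;> simp [Li_apply, Lj_apply, Lk_apply]
theorem RjRi (z : V) : Rj (Ri z) = Rk z := by
  ext i; fin_cases i <;> simp [Ri_apply, Rj_apply, Rk_apply]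
theorem RiRj (z : V) : Ri (Rj z) = - Rk z := by
  ext i; fin_cases i <;> simp [Ri_apply, Rj_apply, Rk_apply]
theorem RkRj (z : V) : Rk (Rj z) = Ri z := by
  ext i; fin_cases i <;> simp [Ri_apply, Rj_apply, Rk_apply]
theorem RjRk (z : V) : Rj (Rk z) = - Ri z := by
  ext i; fin_cases i <;> simp [Ri_apply, Rj_apply, Rk_apply]
theorem RiRk (z : V) : Ri (Rk z) = Rj z := by
  ext i; fin_cases i <;> simp [Ri_apply, Rj_apply, Rk_apply]
theorem RkRi (z : V) : Rk (Ri z) = - Rj z := by
  ext i; fin_cases i <;> simp [Ri_apply, Rj_apply, Rk_apply]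

end Crest.Agent.R205.Arc
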