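import Mathlib
import Crest.Prelude.Def_QuadricHamiltonian
import Crest.Agent.R205.ArcOps
import Crest.Agent.R205.ArcReal

/-! The two explicit collective flows and the Hamiltonian lift built from them. -/

set_option autoImplicit false

namespace Crest.Agent.R205.Arc

open Crest.GeometryTopology.Quadric Complex

/-! ### smoothness of the ingredients -/

theorem contDiff_op (E : V →L[ℂ] V) : ContDiff ℝ (⊤ : ℕ∞) (fun z : V => E z) :=
  (E.restrictScalars ℝ).contDiff

theorem herm_im (z w : V) : (herm z w).im = ∑ j, ((z j).re * (w j).im - (z j).im * (w j).re) := by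
  simp only [herm, Complex.im_sum]
  refine Finset.sum_congr rfl fun j _ => ?_
  simp; ring

theorem contDiff_mom (G : V →L[ℂ] V) : ContDiff ℝ (⊤ : ℕ∞) (mom G) := by
  have h : mom G = fun z => -(∑ j, ((z j).re * (G z j).im - (z j).im * (G z j).re)) := by
    funext z; rw [mom, herm_im]
  rw [h]
  have h1 : ∀ j, ContDiff ℝ (⊤ : ℕ∞) (fun z : V => z j) := fun j => contDiff_apply ℝ ℂ j
  have h2 : ∀ j, ContDiff ℝ (⊤ : ℕ∞) (fun z : V => G z j) := fun j =>
    (h1 j).comp (contDiff_op G)
  have hre : ∀ {f : V → ℂ}, ContDiff ℝ (⊤ : ℕ∞) f → ContDiff ℝ (⊤ : ℕ∞) (fun z => (f z).re) :=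
    fun hf => Complex.reCLM.contDiff.comp hf
  have him : ∀ {f : V → ℂ}, ContDiff ℝ (⊤ : ℕ∞) f → ContDiff ℝ (⊤ : ℕ∞) (fun z => (f z).im) :=
    fun hf => Complex.imCLM.contDiff.comp hf
  apply ContDiff.neg
  apply ContDiff.sum
  intro j _
  exact ((hre (h1 j)).mul (him (h2 j))).sub ((him (h1 j)).mul (hre (h2 j)))

theorem mom_line {G : V →L[ℂ] V} (hG : Gen G) (x w : V) (s : ℝ) :
    mom G (x + s • w) = mom G x + s * (2 * (herm (G x) w).im) + s ^ 2 * mom G w := by
  have h1 : (herm x (G w)).im = - (herm (G x) w).im := by rw [hG.h]; simp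
  have h2 : (herm w (G x)).im = - (herm (G x) w).im := by
    rw [herm_im, herm_im, ← Finset.sum_neg_distrib]
    refine Finset.sum_congr rfl fun j _ => ?_
    ring
  simp only [mom, map_add, E_rsmul, herm_add_left, herm_add_right, herm_rsmul_left,
    herm_rsmul_right, Complex.add_im, Complex.im_ofReal_mul, h1, h2]
  ring

theorem hasDerivAt_mom_line {G : V →L[ℂ] V} (hG : Gen G) (x w : V) :
    HasDerivAt (fun s : ℝ => mom G (x + s • w)) (2 * (herm (G x) w).im) 0 := by
  have h : (fun s : ℝ => mom G (x + s • w)) =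
      fun s : ℝ => mom G x + s * (2 * (herm (G x) w).im) + s ^ 2 * mom G w := by
    funext s; exact mom_line hG x w s
  rw [h]
  have h1 : HasDerivAt (fun s : ℝ => mom G x + s * (2 * (herm (G x) w).im) + s ^ 2 * mom G w)
      (1 * (2 * (herm (G x) w).im) + ((2 : ℕ) * (0 : ℝ) ^ (2 - 1)) * mom G w) 0 := by
    exact (((hasDerivAt_id (0 : ℝ)).mul_const _).const_add _).add
      ((hasDerivAt_pow 2 (0 : ℝ)).mul_const _)
  simpa using h1

/-! ### the elementary flows -/

/-- first angle -/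
noncomputable def th (E F : V →L[ℂ] V) (z : V) : ℝ := ang (mom E z) (mom F z)

/-- second angle -/
noncomputable def et (E : V →L[ℂ] V) (κ : ℝ) (z : V) : ℝ := κ + Real.arctan ((1 / 4) * mom E z)

/-- the flow of `ham E F κ` -/
noncomputable def flow (E F : V →L[ℂ] V) (κ : ℝ) (τ : ℝ) (z : V) : V :=
  rot E (τ * th E F z) (rot F (τ * et E κ z) z)

/-- the Hamiltonian `κ q + arctan (p / 4) (1 + q)`, where `p`, `q` are the moments of `E`, `F` -/
noncomputable def ham (E F : V →L[ℂ] V) (κ : ℝ) (z : V) : ℝ :=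
  κ * mom F z + Real.arctan ((1 / 4) * mom E z) * (1 + mom F z)

theorem contDiff_th (E F : V →L[ℂ] V) : ContDiff ℝ (⊤ : ℕ∞) (th E F) := by
  unfold th ang
  apply ContDiff.div
  · exact contDiff_const.mul (contDiff_const.add (contDiff_mom F))
  · exact contDiff_const.add (contDiff_const.mul ((contDiff_mom E).pow 2))
  · intro z; positivity

theorem contDiff_arctan_mom (E : V →L[ℂ] V) :
    ContDiff ℝ (⊤ : ℕ∞) (fun z => Real.arctan ((1 / 4) * mom E z)) :=
  Real.contDiff_arctan.comp (contDiff_const.mul (contDiff_mom E))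

theorem contDiff_et (E : V →L[ℂ] V) (κ : ℝ) : ContDiff ℝ (⊤ : ℕ∞) (et E κ) := by
  unfold et
  exact contDiff_const.add (contDiff_arctan_mom E)

theorem contDiff_ham (E F : V →L[ℂ] V) (κ : ℝ) : ContDiff ℝ (⊤ : ℕ∞) (ham E F κ) := by
  unfold ham
  exact (contDiff_const.mul (contDiff_mom F)).add
    ((contDiff_arctan_mom E).mul (contDiff_const.add (contDiff_mom F)))

theorem contDiff_rot {X : Type*} [NormedAddCommGroup X] [NormedSpace ℝ X] (E : V →L[ℂ] V)
    {f : X → ℝ} {g : X → V} (hf : ContDiff ℝ (⊤ : ℕ∞) f) (hg : ContDiff ℝ (⊤ : ℕ∞) g) :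
    ContDiff ℝ (⊤ : ℕ∞) (fun x => rot E (f x) (g x)) := by
  unfold rot
  exact (hg.add (((Real.contDiff_cos.comp hf).sub contDiff_const).smul
    ((contDiff_op P).comp hg))).add ((Real.contDiff_sin.comp hf).smul ((contDiff_op E).comp hg))

theorem contDiff_flow {X : Type*} [NormedAddCommGroup X] [NormedSpace ℝ X]
    (E F : V →L[ℂ] V) (κ : ℝ) {f : X → ℝ} {g : X → V}
    (hf : ContDiff ℝ (⊤ : ℕ∞) f) (hg : ContDiff ℝ (⊤ : ℕ∞) g) :
    ContDiff ℝ (⊤ : ℕ∞) (fun x => flow E F κ (f x) (g x)) := by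
  unfold flow
  exact contDiff_rot E (hf.mul ((contDiff_th E F).comp hg))
    (contDiff_rot F (hf.mul ((contDiff_et E κ).comp hg)) hg)

theorem flow_zero (E F : V →L[ℂ] V) (κ : ℝ) (z : V) : flow E F κ 0 z = z := by
  simp [flow, rot_zero]

/-- Commuting pairs of generators. -/
structure Pair (E F : V →L[ℂ] V) : Prop where
  gE : Gen E
  gF : Gen F
  comm : ∀ z, E (F z) = F (E z)

theorem pairLjRi : Pair Lj Ri := ⟨genLj, genRi, LjRi⟩
theorem pairRjLi : Pair Rj Li := ⟨genRj, genLi, fun z => (LiRj z).symm⟩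

theorem flow_mem {E F : V →L[ℂ] V} (h : Pair E F) (κ τ : ℝ) {z : V} (hz : z ∈ unitCone) :
    flow E F κ τ z ∈ unitCone :=
  rot_mem h.gE _ (rot_mem h.gF _ hz)

theorem flow_four {E F : V →L[ℂ] V} (h : Pair E F) (κ τ : ℝ) (z : V) :
    flow E F κ τ z 4 = z 4 := by
  rw [flow, rot_four h.gE, rot_four h.gF]

theorem mom_flow_E {E F : V →L[ℂ] V} (h : Pair E F) (κ τ : ℝ) (z : V) :
    mom E (flow E F κ τ z) = mom E z := by
  rw [flow, mom_rot_comm h.gE h.gE (fun _ => rfl), mom_rot_comm h.gF h.gE (fun z => (h.comm z).symm)]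

theorem mom_flow_F {E F : V →L[ℂ] V} (h : Pair E F) (κ τ : ℝ) (z : V) :
    mom F (flow E F κ τ z) = mom F z := by
  rw [flow, mom_rot_comm h.gE h.gF h.comm, mom_rot_comm h.gF h.gF (fun _ => rfl)]

theorem th_flow {E F : V →L[ℂ] V} (h : Pair E F) (κ τ : ℝ) (z : V) :
    th E F (flow E F κ τ z) = th E F z := by
  rw [th, mom_flow_E h, mom_flow_F h, th]

theorem et_flow {E F : V →L[ℂ] V} (h : Pair E F) (κ τ : ℝ) (z : V) :
    et E κ (flow E F κ τ z) = et E κ z := by
  rw [et, mom_flow_E h, et]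

theorem flow_smul (E F : V →L[ℂ] V) (κ τ : ℝ) {c : ℂ} (hc : ‖c‖ = 1) (z : V) :
    flow E F κ τ (c • z) = c • flow E F κ τ z := by
  simp only [flow, th, et, mom_smul _ hc, rot_smul]

theorem ham_smul (E F : V →L[ℂ] V) (κ : ℝ) {c : ℂ} (hc : ‖c‖ = 1) (z : V) :
    ham E F κ (c • z) = ham E F κ z := by
  simp only [ham, mom_smul _ hc]

/-! ### the derivative of the flow -/

theorem op_rot {E F : V →L[ℂ] V} (hF : Gen F) (hEF : ∀ z, E (F z) = F (E z)) (θ : ℝ) (z : V) :
    F (rot E θ z) = rot E θ (F z) := by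
  simp only [rot, map_add, E_rsmul, hF.EP, hF.PE, hEF]

theorem rot_add (E : V →L[ℂ] V) (θ : ℝ) (z w : V) : rot E θ (z + w) = rot E θ z + rot E θ w := by
  simp only [rot, map_add, smul_add]; abel

theorem rot_rsmul (E : V →L[ℂ] V) (θ r : ℝ) (z : V) : rot E θ (r • z) = r • rot E θ z := by
  rw [← Complex.coe_smul, rot_smul, Complex.coe_smul]

theorem hasDerivAt_op (E : V →L[ℂ] V) {y : ℝ → V} {D : V} {t : ℝ} (hy : HasDerivAt y D t) :
    HasDerivAt (fun s => E (y s)) (E D) t :=
  (E.restrictScalars ℝ).hasFDerivAt.comp_hasDerivAt t hy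

theorem hasDerivAt_rot {E : V →L[ℂ] V} (hE : Gen E) {f : ℝ → ℝ} {f' : ℝ} {y : ℝ → V} {D : V}
    {t : ℝ} (hf : HasDerivAt f f' t) (hy : HasDerivAt y D t) :
    HasDerivAt (fun s => rot E (f s) (y s)) (rot E (f t) D + f' • E (rot E (f t) (y t))) t := by
  have h1 : HasDerivAt (fun s => (Real.cos (f s) - 1) • P (y s))
      ((Real.cos (f t) - 1) • P D + (-Real.sin (f t) * f') • P (y t)) t :=
    (hf.cos.sub_const 1).smul (hasDerivAt_op P hy)
  have h2 : HasDerivAt (fun s => Real.sin (f s) • E (y s))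
      (Real.sin (f t) • E D + (Real.cos (f t) * f') • E (y t)) t :=
    hf.sin.smul (hasDerivAt_op E hy)
  have h3 : HasDerivAt (fun s => rot E (f s) (y s)) _ t := (hy.add h1).add h2
  convert h3 using 1
  simp only [rot, map_add, E_rsmul, hE.EP, hE.EE, smul_add, smul_smul, smul_neg]
  ext j
  simp only [Pi.add_apply, Pi.smul_apply, Pi.neg_apply, Complex.real_smul]
  push_cast
  ring

theorem hasDerivAt_flow {E F : V →L[ℂ] V} (h : Pair E F) (κ : ℝ) (z : V) {f : ℝ → ℝ} {f' t : ℝ}
    (hf : HasDerivAt f f' t) :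
    HasDerivAt (fun s => flow E F κ (f s) z)
      (f' • (th E F (flow E F κ (f t) z) • E (flow E F κ (f t) z)
        + et E κ (flow E F κ (f t) z) • F (flow E F κ (f t) z))) t := by
  rw [th_flow h, et_flow h]
  have h1 : HasDerivAt (fun s => rot F (f s * et E κ z) z)
      (rot F (f t * et E κ z) 0 + (f' * et E κ z) • F (rot F (f t * et E κ z) z)) t :=
    hasDerivAt_rot h.gF (hf.mul_const _) (hasDerivAt_const t z)
  have h2 : HasDerivAt (fun s => flow E F κ (f s) z) _ t :=
    hasDerivAt_rot h.gE (hf.mul_const (th E F z)) h1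
  convert h2 using 1
  have h0 : rot F (f t * et E κ z) 0 = 0 := by simp [rot]
  rw [h0, zero_add, rot_rsmul, ← op_rot h.gF h.comm]
  simp only [flow, smul_add, smul_smul]
  rw [add_comm]

/-! ### the derivative of the Hamiltonian -/

theorem fderiv_of_line {f : V → ℝ} {x w : V} {d : ℝ} (hf : DifferentiableAt ℝ f x)
    (h : HasDerivAt (fun s : ℝ => f (x + s • w)) d 0) : fderiv ℝ f x w = d := by
  have h1 : HasDerivAt (fun s : ℝ => x + s • w) w 0 := by
    simpa using ((hasDerivAt_id (0 : ℝ)).smul_const w).const_add x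
  have h2 : HasFDerivAt f (fderiv ℝ f x) (x + (0 : ℝ) • w) := by
    simpa using hf.hasFDerivAt
  exact (h2.comp_hasDerivAt (0 : ℝ) h1).unique h

theorem fderiv_ham {E F : V →L[ℂ] V} (h : Pair E F) (κ : ℝ) (x w : V) :
    fderiv ℝ (ham E F κ) x w = 2 * (herm (th E F x • E x + et E κ x • F x) w).im := by
  apply fderiv_of_line ((contDiff_ham E F κ).differentiable (by simp) x)
  have hE := hasDerivAt_mom_line h.gE x w
  have hF := hasDerivAt_mom_line h.gF x w
  have e0 : x + (0 : ℝ) • w = x := by simp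
  have h1 : HasDerivAt (fun s : ℝ => ham E F κ (x + s • w)) _ 0 :=
    (hF.const_mul κ).add (((hE.const_mul (1 / 4 : ℝ)).arctan).mul (hF.const_add 1))
  convert h1 using 1
  simp only [e0, herm_add_left, herm_rsmul_left, Complex.add_im, Complex.im_ofReal_mul, th, et, ang]
  have : (1 + (1 / 4 : ℝ) ^ 2 * mom E x ^ 2) ≠ 0 := by positivity
  have : (1 + (1 / 4 * mom E x : ℝ) ^ 2) ≠ 0 := by positivity
  field_simp
  ring

/-! ### the lift -/

/-- time profile of the first flow -/
noncomputable def pa (t : ℝ) : ℝ := Real.smoothTransition (3 * t)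
/-- time profile of the second flow -/
noncomputable def pb (t : ℝ) : ℝ := Real.smoothTransition (3 * t - 2)

theorem contDiff_pa : ContDiff ℝ (⊤ : ℕ∞) pa :=
  Real.smoothTransition.contDiff.comp (contDiff_const.mul contDiff_id)

theorem contDiff_pb : ContDiff ℝ (⊤ : ℕ∞) pb :=
  Real.smoothTransition.contDiff.comp ((contDiff_const.mul contDiff_id).sub contDiff_const)

theorem pa_zero : pa 0 = 0 := by
  simp [pa]
theorem pb_zero : pb 0 = 0 := by
  unfold pb; apply Real.smoothTransition.zero_of_nonpos; norm_num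
theorem pa_one : pa 1 = 1 := by
  unfold pa; apply Real.smoothTransition.one_of_one_le; norm_num
theorem pb_one : pb 1 = 1 := by
  unfold pb; apply Real.smoothTransition.one_of_one_le; norm_num
theorem pb_eventually {t : ℝ} (ht : t < 2 / 3) : ∀ᶠ s in nhds t, pb s = 0 := by
  filter_upwards [Iio_mem_nhds ht] with s hs
  unfold pb; apply Real.smoothTransition.zero_of_nonpos
  have : s < 2 / 3 := hs
  linarith
theorem pa_eventually {t : ℝ} (ht : 1 / 3 < t) : ∀ᶠ s in nhds t, pa s = 1 := by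
  filter_upwards [Ioi_mem_nhds ht] with s hs
  unfold pa; apply Real.smoothTransition.one_of_one_le
  have : 1 / 3 < s := hs
  linarith

/-- the isotopy -/
noncomputable def Psi (p : ℝ × V) : V :=
  flow Rj Li Real.pi (pb p.1) (flow Lj Ri 0 (pa p.1) p.2)

/-- the time dependent Hamiltonian -/
noncomputable def Ham (p : ℝ × V) : ℝ :=
  deriv pa p.1 * ham Lj Ri 0 p.2 + deriv pb p.1 * ham Rj Li Real.pi p.2

theorem contDiff_deriv_of {f : ℝ → ℝ} (hf : ContDiff ℝ (⊤ : ℕ∞) f) :
    ContDiff ℝ (⊤ : ℕ∞) (deriv f) := by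
  have h : ContDiff ℝ ((⊤ : ℕ∞) + 1) f := by simpa using hf
  exact (contDiff_succ_iff_deriv.mp h).2.2

/-- The Hamiltonian isotopy of the quadric threefold. -/
noncomputable def lift : HamiltonianConeLift where
  Ψ := Psi
  H := Ham
  smooth_Ψ := by
    unfold Psi
    exact contDiff_flow _ _ _ (contDiff_pb.comp contDiff_fst)
      (contDiff_flow _ _ _ (contDiff_pa.comp contDiff_fst) contDiff_snd)
  smooth_H := by
    unfold Ham
    exact (((contDiff_deriv_of contDiff_pa).comp contDiff_fst).mul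
        ((contDiff_ham _ _ _).comp contDiff_snd)).add
      (((contDiff_deriv_of contDiff_pb).comp contDiff_fst).mul
        ((contDiff_ham _ _ _).comp contDiff_snd))
  mapsTo_cone := by
    intro t z hz
    exact flow_mem pairRjLi _ _ (flow_mem pairLjRi _ _ hz)
  compatible := by
    intro t z _ c hc
    exact ⟨c, by simp only [Psi, flow_smul _ _ _ _ hc]⟩
  start := by
    intro z _
    exact ⟨1, by simp only [Psi, pa_zero, pb_zero, flow_zero, one_smul]⟩
  invariant := by
    intro t z _ c hc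
    simp only [Ham, ham_smul _ _ _ hc]
  hamilton := by
    intro t _ z _ w _
    have ha : HasDerivAt pa (deriv pa t) t :=
      ((contDiff_pa.differentiable (by simp)) t).hasDerivAt
    have hb : HasDerivAt pb (deriv pb t) t :=
      ((contDiff_pb.differentiable (by simp)) t).hasDerivAt
    have hd2 : ∀ x, DifferentiableAt ℝ (ham Lj Ri 0) x := fun x =>
      (contDiff_ham Lj Ri 0).differentiable (by simp) x
    have hd1 : ∀ x, DifferentiableAt ℝ (ham Rj Li Real.pi) x := fun x =>
      (contDiff_ham Rj Li Real.pi).differentiable (by simp) x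
    have hH : ∀ x, fderiv ℝ (fun x : V => Ham (t, x)) x w =
        deriv pa t * fderiv ℝ (ham Lj Ri 0) x w + deriv pb t * fderiv ℝ (ham Rj Li Real.pi) x w := by
      intro x
      have := ((hd2 x).hasFDerivAt.const_mul (deriv pa t)).add
        ((hd1 x).hasFDerivAt.const_mul (deriv pb t))
      have h2 : HasFDerivAt (fun x : V => Ham (t, x))
        (deriv pa t • fderiv ℝ (ham Lj Ri 0) x + deriv pb t • fderiv ℝ (ham Rj Li Real.pi) x) x := this
      rw [h2.fderiv]
      simp
    rw [hH]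
    rcases lt_or_ge t (2 / 3) with ht | ht
    · have hev := pb_eventually ht
      have hb0 : deriv pb t = 0 := by
        have : pb =ᶠ[nhds t] fun _ => (0 : ℝ) := hev
        rw [this.deriv_eq]; simp
      have hbt : pb t = 0 := hev.self_of_nhds
      have hPsi : (fun s : ℝ => Psi (s, z)) =ᶠ[nhds t] fun s => flow Lj Ri 0 (pa s) z := by
        filter_upwards [hev] with s hs
        simp only [Psi, hs, flow_zero]
      rw [hPsi.deriv_eq, (hasDerivAt_flow pairLjRi 0 z ha).deriv]
      have hx : Psi (t, z) = flow Lj Ri 0 (pa t) z := hPsi.self_of_nhds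
      rw [hx, hb0, fderiv_ham pairLjRi, herm_rsmul_left, Complex.im_ofReal_mul]
      ring
    · have hev := pa_eventually (lt_of_lt_of_le (by norm_num) ht : 1 / 3 < t)
      have ha0 : deriv pa t = 0 := by
        have : pa =ᶠ[nhds t] fun _ => (1 : ℝ) := hev
        rw [this.deriv_eq]; simp
      have hat : pa t = 1 := hev.self_of_nhds
      have hPsi : (fun s : ℝ => Psi (s, z)) =ᶠ[nhds t]
          fun s => flow Rj Li Real.pi (pb s) (flow Lj Ri 0 1 z) := by
        filter_upwards [hev] with s hs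
        simp only [Psi, hs]
      rw [hPsi.deriv_eq, (hasDerivAt_flow pairRjLi Real.pi _ hb).deriv]
      have hx : Psi (t, z) = flow Rj Li Real.pi (pb t) (flow Lj Ri 0 1 z) := hPsi.self_of_nhds
      rw [hx, ha0, fderiv_ham pairRjLi, herm_rsmul_left, Complex.im_ofReal_mul]
      ring

/-- the time-one map -/
theorem lift_one (z : V) : lift.Ψ (1, z) = flow Rj Li Real.pi 1 (flow Lj Ri 0 1 z) := by
  show Psi (1, z) = _
  simp only [Psi, pa_one, pb_one]

end Crest.Agent.R205.Arc
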