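import Mathlib
import Crest.Prelude.Def_QuadricHamiltonian
import Crest.Agent.R205.ArcOps
import Crest.Agent.R205.ArcReal
import Crest.Agent.R205.ArcLift

/-! The fixed lines of the time-one map. -/

set_option autoImplicit false

namespace Crest.Agent.R205.Arc

open Crest.GeometryTopology.Quadric Complex

/-- squared norm of the first four coordinates -/
noncomputable def nrm (z : V) : ℝ :=
  normSq (z 0) + normSq (z 1) + normSq (z 2) + normSq (z 3)

theorem nrm_nonneg (z : V) : 0 ≤ nrm z := by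
  unfold nrm
  have := normSq_nonneg (z 0); have := normSq_nonneg (z 1)
  have := normSq_nonneg (z 2); have := normSq_nonneg (z 3)
  positivity

theorem nrm_add {z : V} (hz : z ∈ unitCone) : nrm z + normSq (z 4) = 1 := by
  have h := hz.1
  simp only [herm, Fin.sum_univ_five, ← Complex.normSq_eq_conj_mul_self] at h
  unfold nrm
  exact_mod_cast h

theorem sq_four {z : V} (hz : z ∈ unitCone) :
    z 0 ^ 2 + z 1 ^ 2 + z 2 ^ 2 + z 3 ^ 2 = - z 4 ^ 2 := by
  have h := hz.2
  simp only [Fin.sum_univ_five] at h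
  linear_combination h

theorem mom_Li (z : V) : mom Li z = 2 * ((z 0).re * (z 1).im - (z 0).im * (z 1).re)
    + 2 * ((z 2).re * (z 3).im - (z 2).im * (z 3).re) := by
  rw [mom, herm_im]; simp [Fin.sum_univ_five, Li_apply]; ring
theorem mom_Lj (z : V) : mom Lj z = 2 * ((z 0).re * (z 2).im - (z 0).im * (z 2).re)
    - 2 * ((z 1).re * (z 3).im - (z 1).im * (z 3).re) := by
  rw [mom, herm_im]; simp [Fin.sum_univ_five, Lj_apply]; ring
theorem mom_Lk (z : V) : mom Lk z = 2 * ((z 0).re * (z 3).im - (z 0).im * (z 3).re)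
    + 2 * ((z 1).re * (z 2).im - (z 1).im * (z 2).re) := by
  rw [mom, herm_im]; simp [Fin.sum_univ_five, Lk_apply]; ring
theorem mom_Ri (z : V) : mom Ri z = 2 * ((z 0).re * (z 1).im - (z 0).im * (z 1).re)
    - 2 * ((z 2).re * (z 3).im - (z 2).im * (z 3).re) := by
  rw [mom, herm_im]; simp [Fin.sum_univ_five, Ri_apply]; ring
theorem mom_Rj (z : V) : mom Rj z = 2 * ((z 0).re * (z 2).im - (z 0).im * (z 2).re)
    + 2 * ((z 1).re * (z 3).im - (z 1).im * (z 3).re) := by
  rw [mom, herm_im]; simp [Fin.sum_univ_five, Rj_apply]; ring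
theorem mom_Rk (z : V) : mom Rk z = 2 * ((z 0).re * (z 3).im - (z 0).im * (z 3).re)
    - 2 * ((z 1).re * (z 2).im - (z 1).im * (z 2).re) := by
  rw [mom, herm_im]; simp [Fin.sum_univ_five, Rk_apply]; ring

theorem u_sq (z : V) : mom Li z ^ 2 + mom Lj z ^ 2 + mom Lk z ^ 2 =
    nrm z ^ 2 - normSq (z 0 ^ 2 + z 1 ^ 2 + z 2 ^ 2 + z 3 ^ 2) := by
  rw [mom_Li, mom_Lj, mom_Lk, nrm]
  simp only [normSq_apply, pow_two, Complex.add_re, Complex.add_im, Complex.mul_re, Complex.mul_im]
  ring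

theorem v_sq (z : V) : mom Ri z ^ 2 + mom Rj z ^ 2 + mom Rk z ^ 2 =
    nrm z ^ 2 - normSq (z 0 ^ 2 + z 1 ^ 2 + z 2 ^ 2 + z 3 ^ 2) := by
  rw [mom_Ri, mom_Rj, mom_Rk, nrm]
  simp only [normSq_apply, pow_two, Complex.add_re, Complex.add_im, Complex.mul_re, Complex.mul_im]
  ring

theorem u_le {z : V} (hz : z ∈ unitCone) : mom Li z ^ 2 + mom Lj z ^ 2 + mom Lk z ^ 2 ≤ 1 := by
  rw [u_sq]
  have h1 := nrm_add hz
  have h2 := nrm_nonneg z
  have h3 := normSq_nonneg (z 4)
  have h4 := normSq_nonneg (z 0 ^ 2 + z 1 ^ 2 + z 2 ^ 2 + z 3 ^ 2)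
  nlinarith

theorem v_le {z : V} (hz : z ∈ unitCone) : mom Ri z ^ 2 + mom Rj z ^ 2 + mom Rk z ^ 2 ≤ 1 := by
  rw [v_sq, ← u_sq]; exact u_le hz

theorem u_eq {z : V} (hz : z ∈ unitCone) (h4 : z 4 = 0) :
    mom Li z ^ 2 + mom Lj z ^ 2 + mom Lk z ^ 2 = 1 := by
  rw [u_sq, sq_four hz, h4]
  have h1 := nrm_add hz
  rw [h4] at h1
  simp at h1
  rw [h1]; simp

theorem v_eq {z : V} (hz : z ∈ unitCone) (h4 : z 4 = 0) :
    mom Ri z ^ 2 + mom Rj z ^ 2 + mom Rk z ^ 2 = 1 := by
  rw [v_sq, ← u_sq]; exact u_eq hz h4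

/-- a unit cone point on the quadric surface is determined by its moments up to a scalar -/
theorem line_of_moments {z : V} (hz : z ∈ unitCone) (h4 : z 4 = 0)
    (h1 : mom Ri z = mom Li z) (h2 : mom Rj z = mom Lj z) (h3 : mom Rk z = mom Lk z) :
    z = z 0 • ![1, I * (mom Li z : ℂ), I * (mom Lj z : ℂ), I * (mom Lk z : ℂ), 0] := by
  have hu := u_eq hz h4
  have hn := nrm_add hz
  rw [h4] at hn
  simp only [map_zero, add_zero] at hn
  have e1 : 2 * ((z 0).re * (z 1).im - (z 0).im * (z 1).re) = mom Li z := by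
    have := mom_Li z; have := mom_Ri z; linarith
  have e2 : 2 * ((z 0).re * (z 2).im - (z 0).im * (z 2).re) = mom Lj z := by
    have := mom_Lj z; have := mom_Rj z; linarith
  have e3 : 2 * ((z 0).re * (z 3).im - (z 0).im * (z 3).re) = mom Lk z := by
    have := mom_Lk z; have := mom_Rk z; linarith
  set p := mom Li z
  set q := mom Lj z
  set r := mom Lk z
  have key : normSq (z 1 - I * p * z 0) + normSq (z 2 - I * q * z 0)
      + normSq (z 3 - I * r * z 0) = 0 := by
    have : normSq (z 1 - I * p * z 0) + normSq (z 2 - I * q * z 0)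
      + normSq (z 3 - I * r * z 0) = nrm z + (p ^ 2 + q ^ 2 + r ^ 2 - 1) * normSq (z 0)
       - p * (2 * ((z 0).re * (z 1).im - (z 0).im * (z 1).re))
       - q * (2 * ((z 0).re * (z 2).im - (z 0).im * (z 2).re))
       - r * (2 * ((z 0).re * (z 3).im - (z 0).im * (z 3).re)) := by
      simp only [nrm, normSq_apply, Complex.sub_re, Complex.sub_im, Complex.mul_re, Complex.mul_im,
        Complex.I_re, Complex.I_im, Complex.ofReal_re, Complex.ofReal_im]
      ring
    rw [this, e1, e2, e3, hn, hu]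
    linear_combination -hu
  have g1 := normSq_nonneg (z 1 - I * p * z 0)
  have g2 := normSq_nonneg (z 2 - I * q * z 0)
  have g3 := normSq_nonneg (z 3 - I * r * z 0)
  have k1 : z 1 - I * p * z 0 = 0 := normSq_eq_zero.mp (by linarith)
  have k2 : z 2 - I * q * z 0 = 0 := normSq_eq_zero.mp (by linarith)
  have k3 : z 3 - I * r * z 0 = 0 := normSq_eq_zero.mp (by linarith)
  ext j
  fin_cases j
  · simp
  · simp; linear_combination k1
  · simp; linear_combination k2
  · simp; linear_combination k3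
  · simp [h4]

/-! ### the two half maps -/

theorem step2 (z : V) : flow Lj Ri 0 1 z =
    rot Lj (ang (mom Lj z) (mom Ri z)) (rot Ri (Real.arctan ((1 / 4) * mom Lj z)) z) := by
  simp [flow, th, et]

theorem step1 (y : V) : flow Rj Li Real.pi 1 y =
    rot Rj (ang (mom Rj y) (mom Li y)) (rot Li (Real.pi + Real.arctan ((1 / 4) * mom Rj y)) y) := by
  simp [flow, th, et]

/-- the time-one map -/
noncomputable def M (z : V) : V := flow Rj Li Real.pi 1 (flow Lj Ri 0 1 z)

theorem M_mem {z : V} (hz : z ∈ unitCone) : M z ∈ unitCone :=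
  flow_mem pairRjLi _ _ (flow_mem pairLjRi _ _ hz)

theorem M_four (z : V) : M z 4 = z 4 := by
  rw [M, flow_four pairRjLi, flow_four pairLjRi]

theorem norm_one_of {z : V} {c : ℂ} (hz : z ∈ unitCone) (hc : c • z ∈ unitCone) : ‖c‖ = 1 := by
  have h1 := hc.1
  rw [herm_smul_smul, hz.1, mul_one] at h1
  have h2 : ‖c‖ ^ 2 = 1 := by exact_mod_cast h1
  exact (pow_eq_one_iff_of_nonneg (norm_nonneg c) two_ne_zero).mp h2

/-- The fixed line equation. -/
theorem fixed_eq {z : V} (hz : z ∈ unitCone) {c : ℂ} (h : M z = c • z) :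
    rot Lj (ang (mom Lj z) (mom Ri z)) (rot Ri (Real.arctan ((1 / 4) * mom Lj z)) z) =
    c • rot Li (-(Real.pi + Real.arctan ((1 / 4) * mom Rj z)))
      (rot Rj (-(ang (mom Rj z) (mom Li z))) z) := by
  have hc : ‖c‖ = 1 := norm_one_of hz (h ▸ M_mem hz)
  have hj : mom Rj (flow Lj Ri 0 1 z) = mom Rj z := by
    have : mom Rj (M z) = mom Rj (flow Lj Ri 0 1 z) := by rw [M, mom_flow_E pairRjLi]
    rw [← this, h, mom_smul _ hc]
  have hi : mom Li (flow Lj Ri 0 1 z) = mom Li z := by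
    have : mom Li (M z) = mom Li (flow Lj Ri 0 1 z) := by rw [M, mom_flow_F pairRjLi]
    rw [← this, h, mom_smul _ hc]
  rw [← step2]
  have h1 : M z = _ := step1 (flow Lj Ri 0 1 z)
  rw [hj, hi, h] at h1
  have h2 := congrArg (fun x => rot Li (-(Real.pi + Real.arctan ((1 / 4) * mom Rj z)))
      (rot Rj (-(ang (mom Rj z) (mom Li z))) x)) h1
  simp only [rot_neg_rot genRj, rot_neg_rot genLi, rot_smul] at h2
  exact h2.symm

end Crest.Agent.R205.Arc
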