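import Mathlib
import Crest.Prelude.Def_QuadricHamiltonian
import Crest.Agent.R205.ArcOps
import Crest.Agent.R205.ArcReal
import Crest.Agent.R205.ArcLift
import Crest.Agent.R205.ArcFixed

/-! Classification of the fixed lines and the final statement. -/

set_option autoImplicit false

namespace Crest.Agent.R205.Arc

open Crest.GeometryTopology.Quadric Complex

theorem abs_LjRi (z : V) : |(herm z (Lj (Ri z))).re| ≤ nrm z := by
  have h : (herm z (Lj (Ri z))).re = -2 * ((z 0).re * (z 3).re + (z 0).im * (z 3).im)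
      - 2 * ((z 1).re * (z 2).re + (z 1).im * (z 2).im) := by
    simp [herm, Fin.sum_univ_five, Lj_apply, Ri_apply]; ring
  rw [h, abs_le]
  simp only [nrm, normSq_apply]
  constructor <;> nlinarith [sq_nonneg ((z 0).re - (z 3).re), sq_nonneg ((z 0).im - (z 3).im),
    sq_nonneg ((z 1).re - (z 2).re), sq_nonneg ((z 1).im - (z 2).im),
    sq_nonneg ((z 0).re + (z 3).re), sq_nonneg ((z 0).im + (z 3).im),
    sq_nonneg ((z 1).re + (z 2).re), sq_nonneg ((z 1).im + (z 2).im)]

theorem abs_LiRj (z : V) : |(herm z (Li (Rj z))).re| ≤ nrm z := by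
  have h : (herm z (Li (Rj z))).re = 2 * ((z 0).re * (z 3).re + (z 0).im * (z 3).im)
      - 2 * ((z 1).re * (z 2).re + (z 1).im * (z 2).im) := by
    simp [herm, Fin.sum_univ_five, Li_apply, Rj_apply]; ring
  rw [h, abs_le]
  simp only [nrm, normSq_apply]
  constructor <;> nlinarith [sq_nonneg ((z 0).re - (z 3).re), sq_nonneg ((z 0).im - (z 3).im),
    sq_nonneg ((z 1).re - (z 2).re), sq_nonneg ((z 1).im - (z 2).im),
    sq_nonneg ((z 0).re + (z 3).re), sq_nonneg ((z 0).im + (z 3).im),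
    sq_nonneg ((z 1).re + (z 2).re), sq_nonneg ((z 1).im + (z 2).im)]

theorem herm_P_re (z : V) : (herm z (P z)).re = nrm z := by
  simp [herm, Fin.sum_univ_five, P_apply, nrm, normSq_apply]

theorem herm_E_re {E : V →L[ℂ] V} (hE : Gen E) (z : V) : (herm z (E z)).re = 0 := by
  have h1 : (herm (E z) z).re = (herm z (E z)).re := by
    simp only [herm, Complex.re_sum]
    refine Finset.sum_congr rfl fun j _ => ?_
    simp; ring
  rw [hE.h, Complex.neg_re] at h1
  linarith

/-- real part of the pairing with a doubly rotated vector -/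
theorem re_rot_rot {E F : V →L[ℂ] V} (hE : Gen E) (hF : Gen F) (θ η : ℝ) (z : V) :
    (herm z (P (rot E θ (rot F η z)))).re =
      Real.cos θ * Real.cos η * nrm z + Real.sin θ * Real.sin η * (herm z (E (F z))).re := by
  have h1 : P (rot E θ (rot F η z)) = (Real.cos θ * Real.cos η) • P z
      + (Real.cos θ * Real.sin η) • F z + (Real.sin θ * Real.cos η) • E z
      + (Real.sin θ * Real.sin η) • E (F z) := by
    simp only [rot, map_add, E_rsmul, PP, hE.PE, hE.EP, hF.PE, smul_add, smul_smul]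
    ext j
    simp only [Pi.add_apply, Pi.smul_apply, Complex.real_smul]
    push_cast
    ring
  rw [h1]
  simp only [herm_add_right, herm_rsmul_right, Complex.add_re, Complex.re_ofReal_mul,
    herm_P_re, herm_E_re hE, herm_E_re hF]
  ring

theorem sin_arctan' (x : ℝ) : Real.sin (Real.arctan x) = x * Real.cos (Real.arctan x) := by
  rw [Real.sin_arctan, Real.cos_arctan]; ring

theorem cos_ang_pos {y x : ℝ} (h0 : -1 ≤ x) (h1 : x ≤ 1) : 7 / 8 ≤ Real.cos (ang y x) := by
  have h2 := ang_nonneg h0 y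
  have h3 := ang_le h0 y
  have := Real.one_sub_sq_div_two_le_cos (x := ang y x)
  nlinarith

set_option maxHeartbeats 4000000 in
/-- no fixed line off the quadric surface `z 4 = 0` -/
theorem fixed_four {z : V} (hz : z ∈ unitCone) {c : ℂ} (h : M z = c • z) : z 4 = 0 := by
  by_contra h4
  have hc : c = 1 := by
    have h1 : M z 4 = c * z 4 := by rw [h]; simp
    rw [M_four] at h1
    have : (c - 1) * z 4 = 0 := by linear_combination -h1
    rcases mul_eq_zero.mp this with h2 | h2
    · exact sub_eq_zero.mp h2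
    · exact absurd h2 h4
  have heq := fixed_eq hz h
  rw [hc, one_smul] at heq
  have hre := congrArg (fun x => (herm z (P x)).re) heq
  simp only [re_rot_rot genLj genRi, re_rot_rot genLi genRj] at hre
  have hu := u_le hz
  have hv := v_le hz
  set α := ang (mom Lj z) (mom Ri z) with hα
  set δ := ang (mom Rj z) (mom Li z) with hδ
  have hN : 0 < nrm z := by
    rcases eq_or_lt_of_le (nrm_nonneg z) with h0 | h0
    · exfalso
      have h1 := normSq_nonneg (z 0); have h2 := normSq_nonneg (z 1)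
      have h3 := normSq_nonneg (z 2); have h5 := normSq_nonneg (z 3)
      unfold nrm at h0
      have z0 : z 0 = 0 := normSq_eq_zero.mp (by linarith)
      have z1 : z 1 = 0 := normSq_eq_zero.mp (by linarith)
      have z2 : z 2 = 0 := normSq_eq_zero.mp (by linarith)
      have z3 : z 3 = 0 := normSq_eq_zero.mp (by linarith)
      have := sq_four hz
      rw [z0, z1, z2, z3] at this
      apply h4
      have h6 : z 4 ^ 2 = 0 := by linear_combination this
      exact pow_eq_zero_iff two_ne_zero |>.mp h6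
    · exact h0
  have cα : 7 / 8 ≤ Real.cos α := by
    apply cos_ang_pos <;> nlinarith [sq_nonneg (mom Rj z), sq_nonneg (mom Rk z)]
  have cδ : 7 / 8 ≤ Real.cos δ := by
    apply cos_ang_pos <;> nlinarith [sq_nonneg (mom Lj z), sq_nonneg (mom Lk z)]
  have hcosγ := Real.cos_arctan_pos ((1 / 4) * mom Lj z)
  have hcosβ := Real.cos_arctan_pos ((1 / 4) * mom Rj z)
  have e1 : Real.cos (-(Real.pi + Real.arctan ((1 / 4) * mom Rj z)))
      = - Real.cos (Real.arctan ((1 / 4) * mom Rj z)) := by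
    rw [Real.cos_neg, add_comm, Real.cos_add_pi]
  have e2 : Real.sin (-(Real.pi + Real.arctan ((1 / 4) * mom Rj z)))
      = Real.sin (Real.arctan ((1 / 4) * mom Rj z)) := by
    rw [Real.sin_neg, add_comm, Real.sin_add_pi, neg_neg]
  rw [e1, e2, sin_arctan', sin_arctan', Real.cos_neg, Real.sin_neg] at hre
  set cγ := Real.cos (Real.arctan ((1 / 4) * mom Lj z))
  set cβ := Real.cos (Real.arctan ((1 / 4) * mom Rj z))
  have hX := abs_le.mp (abs_LjRi z)
  have hY := abs_le.mp (abs_LiRj z)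
  set X := (herm z (Lj (Ri z))).re
  set Y := (herm z (Li (Rj z))).re
  have hxa : |mom Lj z| ≤ 1 := by
    rw [abs_le]; constructor <;> nlinarith [sq_nonneg (mom Li z), sq_nonneg (mom Lk z)]
  have hxb : |mom Rj z| ≤ 1 := by
    rw [abs_le]; constructor <;> nlinarith [sq_nonneg (mom Ri z), sq_nonneg (mom Rk z)]
  have hsα : |Real.sin α| ≤ 1 := Real.abs_sin_le_one α
  have hsδ : |Real.sin δ| ≤ 1 := Real.abs_sin_le_one δ
  have hXn : |X| ≤ nrm z := abs_le.mpr hX
  have hYn : |Y| ≤ nrm z := abs_le.mpr hY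
  have hb1 : |Real.sin α * ((1 / 4) * mom Lj z) * X| ≤ (1 / 4) * nrm z := by
    rw [abs_mul, abs_mul, abs_mul]
    have : |(1 / 4 : ℝ)| = 1 / 4 := by norm_num
    rw [this]
    calc |Real.sin α| * (1 / 4 * |mom Lj z|) * |X| ≤ 1 * (1 / 4 * 1) * nrm z := by
          gcongr
      _ = _ := by ring
  have hb2 : |((1 / 4) * mom Rj z) * Real.sin δ * Y| ≤ (1 / 4) * nrm z := by
    rw [abs_mul, abs_mul, abs_mul]
    have : |(1 / 4 : ℝ)| = 1 / 4 := by norm_num
    rw [this]
    calc 1 / 4 * |mom Rj z| * |Real.sin δ| * |Y| ≤ 1 / 4 * 1 * 1 * nrm z := by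
          gcongr
      _ = _ := by ring
  have l1 := (abs_le.mp hb1).1
  have l2 := (abs_le.mp hb2).2
  have p1 : 0 < cγ * (Real.cos α * nrm z + Real.sin α * ((1 / 4) * mom Lj z) * X) := by
    apply mul_pos hcosγ; nlinarith
  have p2 : 0 < cβ * (Real.cos δ * nrm z + ((1 / 4) * mom Rj z) * Real.sin δ * Y) := by
    apply mul_pos hcosβ
    have := (abs_le.mp hb2).1
    nlinarith
  nlinarith

set_option maxHeartbeats 4000000 in
/-- The moments of a fixed point. -/
theorem fixed_moments {z : V} (hz : z ∈ unitCone) {c : ℂ} (h : M z = c • z) :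
    z 4 = 0 ∧ mom Ri z = mom Li z ∧ mom Rj z = mom Lj z ∧ mom Rk z = mom Lk z ∧
      ((mom Li z = -1 ∧ mom Lj z = 0 ∧ mom Lk z = 0) ∨
        (0 < mom Li z ∧ mom Lj z ≠ 0 ∧ mom Lk z = (1 / 4) * mom Lj z ^ 2 ∧
          (1 / 4) * mom Lj z ^ 2 = mom Li z * Real.tan (ang (mom Lj z) (mom Li z)) ∧
          mom Lj z ^ 2 + mom Li z ^ 2 + ((1 / 4) * mom Lj z ^ 2) ^ 2 = 1)) := by
  have h4 := fixed_four hz h
  have hu := u_eq hz h4
  have hv := v_eq hz h4
  have hc : ‖c‖ = 1 := norm_one_of hz (h ▸ M_mem hz)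
  have heq := fixed_eq hz h
  have hi0 : -1 ≤ mom Li z := by nlinarith [sq_nonneg (mom Lj z), sq_nonneg (mom Lk z)]
  have hi1 : mom Li z ≤ 1 := by nlinarith [sq_nonneg (mom Lj z), sq_nonneg (mom Lk z)]
  have hi0' : -1 ≤ mom Ri z := by nlinarith [sq_nonneg (mom Rj z), sq_nonneg (mom Rk z)]
  have hi1' : mom Ri z ≤ 1 := by nlinarith [sq_nonneg (mom Rj z), sq_nonneg (mom Rk z)]
  have cα := cos_ang_pos (y := mom Lj z) hi0' hi1'
  have cδ := cos_ang_pos (y := mom Rj z) hi0 hi1
  have angα0 := ang_nonneg hi0' (mom Lj z)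
  have angδ0 := ang_nonneg hi0 (mom Rj z)
  have angα1 := ang_le hi0' (mom Lj z)
  have angδ1 := ang_le hi0 (mom Rj z)
  have sα0 : Real.sin (ang (mom Lj z) (mom Ri z)) = 0 → mom Ri z = -1 := by
    intro hs
    by_contra hne
    have := ang_pos (lt_of_le_of_ne hi0' (Ne.symm hne)) (mom Lj z)
    have := Real.sin_pos_of_pos_of_lt_pi this (by linarith [Real.pi_gt_three])
    linarith
  have sδ0 : Real.sin (ang (mom Rj z) (mom Li z)) = 0 → mom Li z = -1 := by
    intro hs
    by_contra hne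
    have := ang_pos (lt_of_le_of_ne hi0 (Ne.symm hne)) (mom Rj z)
    have := Real.sin_pos_of_pos_of_lt_pi this (by linarith [Real.pi_gt_three])
    linarith
  have hcosγ := Real.cos_arctan_pos ((1 / 4) * mom Lj z)
  have hcosβ := Real.cos_arctan_pos ((1 / 4) * mom Rj z)
  have hsinγ := sin_arctan' ((1 / 4) * mom Lj z)
  have hsinβ := sin_arctan' ((1 / 4) * mom Rj z)
  set α := ang (mom Lj z) (mom Ri z) with hα
  set δ := ang (mom Rj z) (mom Li z) with hδ
  set γ := Real.arctan ((1 / 4) * mom Lj z) with hγ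
  set β := Real.arctan ((1 / 4) * mom Rj z) with hβ
  have c2 : Real.cos (2 * (-(Real.pi + β))) = Real.cos (2 * β) := by
    have : 2 * (-(Real.pi + β)) = -(2 * β + 2 * Real.pi) := by ring
    rw [this, Real.cos_neg, Real.cos_add_two_pi]
  have s2 : Real.sin (2 * (-(Real.pi + β))) = - Real.sin (2 * β) := by
    have : 2 * (-(Real.pi + β)) = -(2 * β + 2 * Real.pi) := by ring
    rw [this, Real.sin_neg, Real.sin_add_two_pi]
  have c3 : Real.cos (2 * -δ) = Real.cos (2 * δ) := by
    rw [mul_neg, Real.cos_neg]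
  have s3 : Real.sin (2 * -δ) = - Real.sin (2 * δ) := by
    rw [mul_neg, Real.sin_neg]
  -- the six moment equations
  have mLi := congrArg (mom Li) heq
  have mLj := congrArg (mom Lj) heq
  have mLk := congrArg (mom Lk) heq
  have mRi := congrArg (mom Ri) heq
  have mRj := congrArg (mom Rj) heq
  have mRk := congrArg (mom Rk) heq
  rw [mom_smul _ hc] at mLi mLj mLk mRi mRj mRk
  have LjLk' : ∀ z, Lj (Li z) = (-Lk) z := fun z => by rw [LjLi]; rfl
  -- Li
  rw [mom_rot_anti genLj genLi (K := Lk) LiLj LjLi, mom_rot_comm genRi genLi (fun z => (LiRi z).symm),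
    mom_rot_comm genRi genLk (fun z => (LkRi z).symm), mom_rot_comm genLi genLi (fun _ => rfl),
    mom_rot_comm genRj genLi (fun z => (LiRj z).symm)] at mLi
  -- Lj
  rw [mom_rot_comm genLj genLj (fun _ => rfl), mom_rot_comm genRi genLj (fun z => (LjRi z).symm),
    mom_rot_anti genLi genLj (K := -Lk) (fun z => by rw [LjLi]; rfl)
      (fun z => by rw [LiLj]; simp), mom_neg_op,
    mom_rot_comm genRj genLj (fun z => (LjRj z).symm),
    mom_rot_comm genRj genLk (fun z => (LkRj z).symm), c2, s2] at mLj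
  -- Lk
  rw [mom_rot_anti genLj genLk (K := -Li) (fun z => by rw [LkLj]; rfl)
      (fun z => by rw [LjLk]; simp), mom_neg_op,
    mom_rot_comm genRi genLk (fun z => (LkRi z).symm),
    mom_rot_comm genRi genLi (fun z => (LiRi z).symm),
    mom_rot_anti genLi genLk (K := Lj) LkLi LiLk,
    mom_rot_comm genRj genLk (fun z => (LkRj z).symm),
    mom_rot_comm genRj genLj (fun z => (LjRj z).symm), c2, s2] at mLk
  -- Ri
  rw [mom_rot_comm genLj genRi LjRi, mom_rot_comm genRi genRi (fun _ => rfl),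
    mom_rot_comm genLi genRi LiRi,
    mom_rot_anti genRj genRi (K := -Rk) (fun z => by rw [RiRj]; rfl)
      (fun z => by rw [RjRi]; simp), mom_neg_op, c3, s3] at mRi
  -- Rj
  rw [mom_rot_comm genLj genRj LjRj, mom_rot_anti genRi genRj (K := Rk) RjRi RiRj,
    mom_rot_comm genLi genRj LiRj, mom_rot_comm genRj genRj (fun _ => rfl)] at mRj
  -- Rk
  rw [mom_rot_comm genLj genRk LjRk, mom_rot_anti genRi genRk (K := -Rj)
      (fun z => by rw [RkRi]; rfl) (fun z => by rw [RiRk]; simp), mom_neg_op,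
    mom_rot_comm genLi genRk LiRk, mom_rot_anti genRj genRk (K := Ri) RkRj RjRk, c3, s3] at mRk
  have Hu := half_angle (α := α) (β := β) (xi := mom Li z) (xj := mom Lj z) (xk := mom Lk z)
    mLi (by linarith) (by linarith)
  have Hv := half_angle (α := δ) (β := γ) (xi := mom Ri z) (xj := mom Rj z) (xk := mom Rk z)
    (by linarith) mRj (by linarith)
  refine ⟨h4, ?_⟩
  -- consequences of `mom Ri z = -1` and of `mom Li z = -1`
  have vdeg : mom Ri z = -1 → mom Rj z = 0 ∧ mom Rk z = 0 := by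
    intro h1
    rw [h1] at hv
    have hj : mom Rj z ^ 2 = 0 := by nlinarith [sq_nonneg (mom Rj z), sq_nonneg (mom Rk z)]
    have hk : mom Rk z ^ 2 = 0 := by nlinarith [sq_nonneg (mom Rj z), sq_nonneg (mom Rk z)]
    exact ⟨pow_eq_zero_iff two_ne_zero |>.mp hj, pow_eq_zero_iff two_ne_zero |>.mp hk⟩
  have udeg : mom Li z = -1 → mom Lj z = 0 ∧ mom Lk z = 0 := by
    intro h1
    rw [h1] at hu
    have hj : mom Lj z ^ 2 = 0 := by nlinarith [sq_nonneg (mom Lj z), sq_nonneg (mom Lk z)]
    have hk : mom Lk z ^ 2 = 0 := by nlinarith [sq_nonneg (mom Lj z), sq_nonneg (mom Lk z)]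
    exact ⟨pow_eq_zero_iff two_ne_zero |>.mp hj, pow_eq_zero_iff two_ne_zero |>.mp hk⟩
  have both : mom Li z = -1 → mom Ri z = -1 → (mom Ri z = mom Li z ∧ mom Rj z = mom Lj z ∧
      mom Rk z = mom Lk z ∧
      ((mom Li z = -1 ∧ mom Lj z = 0 ∧ mom Lk z = 0) ∨
        (0 < mom Li z ∧ mom Lj z ≠ 0 ∧ mom Lk z = (1 / 4) * mom Lj z ^ 2 ∧
          (1 / 4) * mom Lj z ^ 2 = mom Li z * Real.tan (ang (mom Lj z) (mom Li z)) ∧
          mom Lj z ^ 2 + mom Li z ^ 2 + ((1 / 4) * mom Lj z ^ 2) ^ 2 = 1))) := by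
    intro h1 h2
    obtain ⟨a1, a2⟩ := udeg h1
    obtain ⟨b1, b2⟩ := vdeg h2
    exact ⟨by rw [h1, h2], by rw [a1, b1], by rw [a2, b2], Or.inl ⟨h1, a1, a2⟩⟩
  rcases Hu with ⟨sa, sb⟩ | ⟨ua, ub⟩
  · have hRi := sα0 sa
    obtain ⟨b1, b2⟩ := vdeg hRi
    rcases Hv with ⟨sd, _⟩ | ⟨va, _⟩
    · exact both (sδ0 sd) hRi
    · rw [b2, hRi] at va
      exact both (sδ0 (by linarith)) hRi
  · rcases Hv with ⟨sd, _⟩ | ⟨va, vb⟩
    · have hLi := sδ0 sd
      obtain ⟨a1, a2⟩ := udeg hLi
      rw [a2, hLi] at ua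
      exact both hLi (sα0 (by linarith))
    · -- the generic case
      have hk1 : mom Lk z = (1 / 4) * mom Lj z * mom Rj z := by
        rw [hsinβ] at ub
        have : (mom Lk z - (1 / 4) * mom Lj z * mom Rj z) * Real.cos β = 0 := by
          linear_combination ub
        rcases mul_eq_zero.mp this with h5 | h5
        · linarith
        · exact absurd h5 hcosβ.ne'
      have hk2 : mom Rk z = (1 / 4) * mom Lj z * mom Rj z := by
        rw [hsinγ] at vb
        have : (mom Rk z - (1 / 4) * mom Lj z * mom Rj z) * Real.cos γ = 0 := by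
          linear_combination vb
        rcases mul_eq_zero.mp this with h5 | h5
        · linarith
        · exact absurd h5 hcosγ.ne'
      have hk3 : mom Lk z = mom Li z * Real.tan α := by
        rw [Real.tan_eq_sin_div_cos, ← mul_div_assoc, eq_div_iff (by linarith)]
        linarith
      have hk4 : mom Rk z = mom Ri z * Real.tan δ := by
        rw [Real.tan_eq_sin_div_cos, ← mul_div_assoc, eq_div_iff (by linarith)]
        linarith
      have hkk : mom Rk z = mom Lk z := by rw [hk1, hk2]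
      rcases main_real (a := mom Lj z) (b := mom Rj z) (c := mom Li z) (c' := mom Ri z)
        (k := mom Lk z) hk1 hk3 (hkk ▸ hk4) (by linarith) (by rw [hkk] at hv; linarith) with
        ⟨_, _, h5, h6⟩ | ⟨h5, h6, h7, h8⟩
      · exact both h5 h6
      · refine ⟨h6, h7, hkk, Or.inr ⟨h5, h8, ?_, ?_, ?_⟩⟩
        · rw [hk1, h7]; ring
        · rw [hα, h6] at hk3
          rw [← hk3, hk1, h7]; ring
        · rw [hk1, h7] at hu
          linear_combination hu

end Crest.Agent.R205.Arc
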