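import Mathlib
import Crest.Prelude.Def_QuadricHamiltonian

set_option autoImplicit false

namespace Crest.Agent.R205.Ck

open Crest.GeometryTopology.Quadric

/-- Angular momentum components of the middle three coordinates. -/
def l1 (z : Fin 5 → ℂ) : ℝ := (z 2).re * (z 3).im - (z 3).re * (z 2).im
def l2 (z : Fin 5 → ℂ) : ℝ := (z 3).re * (z 1).im - (z 1).re * (z 3).im
def l3 (z : Fin 5 → ℂ) : ℝ := (z 1).re * (z 2).im - (z 2).re * (z 1).im
def ll (z : Fin 5 → ℂ) : ℝ := l1 z ^ 2 + l2 z ^ 2 + l3 z ^ 2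

noncomputable def ca (k s : ℝ) : ℝ := (1 - k ^ 2 * s) * (1 + k ^ 2 * s)⁻¹
noncomputable def cb (k s : ℝ) : ℝ := (2 * k) * (1 + k ^ 2 * s)⁻¹

/-- The Cayley kick: rotation of the middle three coordinates about `L` with
`tan (θ/2) = κ |L|`. -/
noncomputable def kick (κ : ℝ) (z : Fin 5 → ℂ) : Fin 5 → ℂ :=
  ![z 0,
    ca κ (ll z) • z 1 + cb κ (ll z) • (l2 z • z 3 - l3 z • z 2),
    ca κ (ll z) • z 2 + cb κ (ll z) • (l3 z • z 1 - l1 z • z 3),
    ca κ (ll z) • z 3 + cb κ (ll z) • (l1 z • z 2 - l2 z • z 1),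
    z 4]

theorem ll_nonneg (z : Fin 5 → ℂ) : 0 ≤ ll z := by unfold ll; positivity

theorem den_pos' (k s : ℝ) (hs : 0 ≤ s) : 0 < 1 + k ^ 2 * s := by positivity

theorem den_pos (κ : ℝ) (z : Fin 5 → ℂ) : 0 < 1 + κ ^ 2 * ll z :=
  den_pos' _ _ (ll_nonneg z)

theorem ca_cb (k s : ℝ) (hs : 0 ≤ s) : ca k s ^ 2 + cb k s ^ 2 * s = 1 := by
  have h := den_pos' k s hs
  unfold ca cb
  field_simp
  ring

theorem contDiff_re (i : Fin 5) : ContDiff ℝ (⊤ : ℕ∞) (fun z : Fin 5 → ℂ => (z i).re) :=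
  Complex.reCLM.contDiff.comp (contDiff_apply ℝ ℂ i)

theorem contDiff_im (i : Fin 5) : ContDiff ℝ (⊤ : ℕ∞) (fun z : Fin 5 → ℂ => (z i).im) :=
  Complex.imCLM.contDiff.comp (contDiff_apply ℝ ℂ i)

theorem contDiff_l1 : ContDiff ℝ (⊤ : ℕ∞) l1 :=
  ((contDiff_re 2).mul (contDiff_im 3)).sub ((contDiff_re 3).mul (contDiff_im 2))
theorem contDiff_l2 : ContDiff ℝ (⊤ : ℕ∞) l2 :=
  ((contDiff_re 3).mul (contDiff_im 1)).sub ((contDiff_re 1).mul (contDiff_im 3))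
theorem contDiff_l3 : ContDiff ℝ (⊤ : ℕ∞) l3 :=
  ((contDiff_re 1).mul (contDiff_im 2)).sub ((contDiff_re 2).mul (contDiff_im 1))
theorem contDiff_ll : ContDiff ℝ (⊤ : ℕ∞) ll :=
  ((contDiff_l1.pow 2).add (contDiff_l2.pow 2)).add (contDiff_l3.pow 2)

theorem contDiff_kick : ContDiff ℝ (⊤ : ℕ∞) (fun p : ℝ × (Fin 5 → ℂ) => kick p.1 p.2) := by
  have hll : ContDiff ℝ (⊤ : ℕ∞) (fun p : ℝ × (Fin 5 → ℂ) => ll p.2) := contDiff_ll.comp contDiff_snd
  have h1 : ContDiff ℝ (⊤ : ℕ∞) (fun p : ℝ × (Fin 5 → ℂ) => l1 p.2) := contDiff_l1.comp contDiff_snd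
  have h2 : ContDiff ℝ (⊤ : ℕ∞) (fun p : ℝ × (Fin 5 → ℂ) => l2 p.2) := contDiff_l2.comp contDiff_snd
  have h3 : ContDiff ℝ (⊤ : ℕ∞) (fun p : ℝ × (Fin 5 → ℂ) => l3 p.2) := contDiff_l3.comp contDiff_snd
  have hz : ∀ i, ContDiff ℝ (⊤ : ℕ∞) (fun p : ℝ × (Fin 5 → ℂ) => p.2 i) := fun i =>
    (contDiff_apply ℝ ℂ i).comp contDiff_snd
  have hk : ContDiff ℝ (⊤ : ℕ∞) (fun p : ℝ × (Fin 5 → ℂ) => p.1) := contDiff_fst
  have hD : ContDiff ℝ (⊤ : ℕ∞) (fun p : ℝ × (Fin 5 → ℂ) => (1 + p.1 ^ 2 * ll p.2)⁻¹) :=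
    (contDiff_const.add ((hk.pow 2).mul hll)).inv (fun p => (den_pos p.1 p.2).ne')
  have hA : ContDiff ℝ (⊤ : ℕ∞) (fun p : ℝ × (Fin 5 → ℂ) => ca p.1 (ll p.2)) :=
    (contDiff_const.sub ((hk.pow 2).mul hll)).mul hD
  have hB : ContDiff ℝ (⊤ : ℕ∞) (fun p : ℝ × (Fin 5 → ℂ) => cb p.1 (ll p.2)) :=
    (contDiff_const.mul hk).mul hD
  rw [contDiff_pi]
  intro i
  fin_cases i
  · exact hz 0
  · exact (hA.smul (hz 1)).add (hB.smul ((h2.smul (hz 3)).sub (h3.smul (hz 2))))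
  · exact (hA.smul (hz 2)).add (hB.smul ((h3.smul (hz 1)).sub (h1.smul (hz 3))))
  · exact (hA.smul (hz 3)).add (hB.smul ((h1.smul (hz 2)).sub (h2.smul (hz 1))))
  · exact hz 4

theorem mem_cone_iff (z : Fin 5 → ℂ) : z ∈ unitCone ↔
    ((z 0).re ^ 2 + (z 0).im ^ 2 + ((z 1).re ^ 2 + (z 1).im ^ 2) + ((z 2).re ^ 2 + (z 2).im ^ 2)
      + ((z 3).re ^ 2 + (z 3).im ^ 2) + ((z 4).re ^ 2 + (z 4).im ^ 2) = 1) ∧
    ((z 0).re ^ 2 - (z 0).im ^ 2 + ((z 1).re ^ 2 - (z 1).im ^ 2) + ((z 2).re ^ 2 - (z 2).im ^ 2)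
      + ((z 3).re ^ 2 - (z 3).im ^ 2) + ((z 4).re ^ 2 - (z 4).im ^ 2) = 0) ∧
    ((z 0).re * (z 0).im + (z 1).re * (z 1).im + (z 2).re * (z 2).im
      + (z 3).re * (z 3).im + (z 4).re * (z 4).im = 0) := by
  unfold unitCone herm
  simp only [Set.mem_setOf_eq, Fin.sum_univ_five, Complex.ext_iff, pow_two, Complex.add_re,
    Complex.add_im, Complex.mul_re, Complex.mul_im, Complex.conj_re, Complex.conj_im,
    Complex.one_re, Complex.one_im, Complex.zero_re, Complex.zero_im]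
  constructor
  · rintro ⟨⟨h1, h2⟩, h3, h4⟩
    refine ⟨?_, ?_, ?_⟩
    · linear_combination h1
    · linear_combination h3
    · linear_combination h4 / 2
  · rintro ⟨h1, h2, h3⟩
    refine ⟨⟨?_, ?_⟩, ?_, ?_⟩
    · linear_combination h1
    · ring
    · linear_combination h2
    · linear_combination 2 * h3

section kickparts
variable (κ : ℝ) (z : Fin 5 → ℂ)

@[simp] theorem kick_0 : kick κ z 0 = z 0 := rfl
@[simp] theorem kick_4 : kick κ z 4 = z 4 := rfl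
theorem kick_1 : kick κ z 1 =
    ca κ (ll z) • z 1 + cb κ (ll z) • (l2 z • z 3 - l3 z • z 2) := rfl
theorem kick_2 : kick κ z 2 =
    ca κ (ll z) • z 2 + cb κ (ll z) • (l3 z • z 1 - l1 z • z 3) := rfl
theorem kick_3 : kick κ z 3 =
    ca κ (ll z) • z 3 + cb κ (ll z) • (l1 z • z 2 - l2 z • z 1) := rfl

theorem kick_re1 : (kick κ z 1).re = ca κ (ll z) * (z 1).re
    + cb κ (ll z) * (l2 z * (z 3).re - l3 z * (z 2).re) := by
  rw [kick_1]; simp
theorem kick_im1 : (kick κ z 1).im = ca κ (ll z) * (z 1).im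
    + cb κ (ll z) * (l2 z * (z 3).im - l3 z * (z 2).im) := by
  rw [kick_1]; simp
theorem kick_re2 : (kick κ z 2).re = ca κ (ll z) * (z 2).re
    + cb κ (ll z) * (l3 z * (z 1).re - l1 z * (z 3).re) := by
  rw [kick_2]; simp
theorem kick_im2 : (kick κ z 2).im = ca κ (ll z) * (z 2).im
    + cb κ (ll z) * (l3 z * (z 1).im - l1 z * (z 3).im) := by
  rw [kick_2]; simp
theorem kick_re3 : (kick κ z 3).re = ca κ (ll z) * (z 3).re
    + cb κ (ll z) * (l1 z * (z 2).re - l2 z * (z 1).re) := by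
  rw [kick_3]; simp
theorem kick_im3 : (kick κ z 3).im = ca κ (ll z) * (z 3).im
    + cb κ (ll z) * (l1 z * (z 2).im - l2 z * (z 1).im) := by
  rw [kick_3]; simp

theorem l1_kick : l1 (kick κ z) = l1 z := by
  have h := ca_cb κ (ll z) (ll_nonneg z)
  have e : l1 (kick κ z) = (ca κ (ll z) ^ 2 + cb κ (ll z) ^ 2 * ll z) * l1 z := by
    rw [l1, kick_re2, kick_im2, kick_re3, kick_im3]
    generalize ca κ (ll z) = a
    generalize cb κ (ll z) = b
    unfold ll l1 l2 l3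
    ring
  rw [e, h, one_mul]

theorem l2_kick : l2 (kick κ z) = l2 z := by
  have h := ca_cb κ (ll z) (ll_nonneg z)
  have e : l2 (kick κ z) = (ca κ (ll z) ^ 2 + cb κ (ll z) ^ 2 * ll z) * l2 z := by
    rw [l2, kick_re3, kick_im3, kick_re1, kick_im1]
    generalize ca κ (ll z) = a
    generalize cb κ (ll z) = b
    unfold ll l1 l2 l3
    ring
  rw [e, h, one_mul]

theorem l3_kick : l3 (kick κ z) = l3 z := by
  have h := ca_cb κ (ll z) (ll_nonneg z)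
  have e : l3 (kick κ z) = (ca κ (ll z) ^ 2 + cb κ (ll z) ^ 2 * ll z) * l3 z := by
    rw [l3, kick_re1, kick_im1, kick_re2, kick_im2]
    generalize ca κ (ll z) = a
    generalize cb κ (ll z) = b
    unfold ll l1 l2 l3
    ring
  rw [e, h, one_mul]

theorem ll_kick : ll (kick κ z) = ll z := by
  unfold ll; rw [l1_kick, l2_kick, l3_kick]

theorem kick_mem (hz : z ∈ unitCone) : kick κ z ∈ unitCone := by
  rw [mem_cone_iff] at hz ⊢
  obtain ⟨h1, h2, h3⟩ := hz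
  have h := ca_cb κ (ll z) (ll_nonneg z)
  rw [kick_re1, kick_im1, kick_re2, kick_im2, kick_re3, kick_im3, kick_0, kick_4]
  have e1 : ∀ a b : ℝ, (a * (z 1).re + b * (l2 z * (z 3).re - l3 z * (z 2).re)) ^ 2
      + (a * (z 2).re + b * (l3 z * (z 1).re - l1 z * (z 3).re)) ^ 2
      + (a * (z 3).re + b * (l1 z * (z 2).re - l2 z * (z 1).re)) ^ 2 =
      (a ^ 2 + b ^ 2 * ll z) * ((z 1).re ^ 2 + (z 2).re ^ 2 + (z 3).re ^ 2) := by
    intro a b; unfold ll l1 l2 l3; ring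
  have e2 : ∀ a b : ℝ, (a * (z 1).im + b * (l2 z * (z 3).im - l3 z * (z 2).im)) ^ 2
      + (a * (z 2).im + b * (l3 z * (z 1).im - l1 z * (z 3).im)) ^ 2
      + (a * (z 3).im + b * (l1 z * (z 2).im - l2 z * (z 1).im)) ^ 2 =
      (a ^ 2 + b ^ 2 * ll z) * ((z 1).im ^ 2 + (z 2).im ^ 2 + (z 3).im ^ 2) := by
    intro a b; unfold ll l1 l2 l3; ring
  have e3 : ∀ a b : ℝ, (a * (z 1).re + b * (l2 z * (z 3).re - l3 z * (z 2).re)) *
        (a * (z 1).im + b * (l2 z * (z 3).im - l3 z * (z 2).im))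
      + (a * (z 2).re + b * (l3 z * (z 1).re - l1 z * (z 3).re)) *
        (a * (z 2).im + b * (l3 z * (z 1).im - l1 z * (z 3).im))
      + (a * (z 3).re + b * (l1 z * (z 2).re - l2 z * (z 1).re)) *
        (a * (z 3).im + b * (l1 z * (z 2).im - l2 z * (z 1).im)) =
      (a ^ 2 + b ^ 2 * ll z) *
        ((z 1).re * (z 1).im + (z 2).re * (z 2).im + (z 3).re * (z 3).im) := by
    intro a b; unfold ll l1 l2 l3; ring
  have f1 := e1 (ca κ (ll z)) (cb κ (ll z))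
  have f2 := e2 (ca κ (ll z)) (cb κ (ll z))
  have f3 := e3 (ca κ (ll z)) (cb κ (ll z))
  rw [h, one_mul] at f1 f2 f3
  refine ⟨?_, ?_, ?_⟩
  · linear_combination h1 + f1 + f2
  · linear_combination h2 + f1 - f2
  · linear_combination h3 + f3

end kickparts

theorem l1_smul (c : ℂ) (z : Fin 5 → ℂ) : l1 (c • z) = (c.re ^ 2 + c.im ^ 2) * l1 z := by
  simp only [l1, Pi.smul_apply, smul_eq_mul, Complex.mul_re, Complex.mul_im]; ring
theorem l2_smul (c : ℂ) (z : Fin 5 → ℂ) : l2 (c • z) = (c.re ^ 2 + c.im ^ 2) * l2 z := by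
  simp only [l2, Pi.smul_apply, smul_eq_mul, Complex.mul_re, Complex.mul_im]; ring
theorem l3_smul (c : ℂ) (z : Fin 5 → ℂ) : l3 (c • z) = (c.re ^ 2 + c.im ^ 2) * l3 z := by
  simp only [l3, Pi.smul_apply, smul_eq_mul, Complex.mul_re, Complex.mul_im]; ring

theorem norm_one_sq {c : ℂ} (hc : ‖c‖ = 1) : c.re ^ 2 + c.im ^ 2 = 1 := by
  have := Complex.sq_norm c
  rw [hc, Complex.normSq_apply] at this
  linarith

theorem l1_smul' {c : ℂ} (hc : ‖c‖ = 1) (z : Fin 5 → ℂ) : l1 (c • z) = l1 z := by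
  rw [l1_smul, norm_one_sq hc, one_mul]
theorem l2_smul' {c : ℂ} (hc : ‖c‖ = 1) (z : Fin 5 → ℂ) : l2 (c • z) = l2 z := by
  rw [l2_smul, norm_one_sq hc, one_mul]
theorem l3_smul' {c : ℂ} (hc : ‖c‖ = 1) (z : Fin 5 → ℂ) : l3 (c • z) = l3 z := by
  rw [l3_smul, norm_one_sq hc, one_mul]
theorem ll_smul' {c : ℂ} (hc : ‖c‖ = 1) (z : Fin 5 → ℂ) : ll (c • z) = ll z := by
  unfold ll; rw [l1_smul' hc, l2_smul' hc, l3_smul' hc]

theorem kick_smul (κ : ℝ) {c : ℂ} (hc : ‖c‖ = 1) (z : Fin 5 → ℂ) :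
    kick κ (c • z) = c • kick κ z := by
  funext i
  fin_cases i
  · rfl
  · change kick κ (c • z) 1 = c • kick κ z 1
    rw [kick_1, kick_1, ll_smul' hc, l2_smul' hc, l3_smul' hc]
    simp only [Pi.smul_apply, smul_eq_mul, Complex.real_smul]
    ring
  · change kick κ (c • z) 2 = c • kick κ z 2
    rw [kick_2, kick_2, ll_smul' hc, l3_smul' hc, l1_smul' hc]
    simp only [Pi.smul_apply, smul_eq_mul, Complex.real_smul]
    ring
  · change kick κ (c • z) 3 = c • kick κ z 3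
    rw [kick_3, kick_3, ll_smul' hc, l1_smul' hc, l2_smul' hc]
    simp only [Pi.smul_apply, smul_eq_mul, Complex.real_smul]
    ring
  · rfl

theorem kick_zero (z : Fin 5 → ℂ) : kick 0 z = z := by
  funext i
  fin_cases i
  · rfl
  · change kick 0 z 1 = z 1
    rw [kick_1]; simp [ca, cb]
  · change kick 0 z 2 = z 2
    rw [kick_2]; simp [ca, cb]
  · change kick 0 z 3 = z 3
    rw [kick_3]; simp [ca, cb]
  · rfl

end Crest.Agent.R205.Ck
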