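import Crest.Agent.R205.CkFinal

set_option autoImplicit false

namespace Crest.Agent.R205.Ck

open Crest.GeometryTopology.Quadric

noncomputable def wD : Fin 5 → ℂ := ![0, Complex.I, Complex.I, 0, 0]

noncomputable def muD : ℂ := ⟨-72/97, 65/97⟩

theorem ll_zD : ll zD = 18 / 169 := by
  unfold ll; rw [l1_zD, l2_zD, l3_zD]; norm_num

theorem ca_D : ca (65 / 36) (18 / 169) = 47 / 97 := by unfold ca; norm_num
theorem cb_D : cb (65 / 36) (18 / 169) = 260 / 97 := by unfold cb; norm_num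

theorem Phi_zD : Phi zD = muD • zD := by
  have k0 : kick (65 / 36) zD 0 = ⟨-1/2, 5/26⟩ := rfl
  have k1 : kick (65 / 36) zD 1 = (47 / 97 : ℝ) • (⟨0, -6/13⟩ : ℂ)
      + (260 / 97 : ℝ) • ((-3 / 13 : ℝ) • (⟨1/2, 5/26⟩ : ℂ) - (0 : ℝ) • (⟨0, 6/13⟩ : ℂ)) := by
    rw [kick_1, ll_zD, ca_D, cb_D, l2_zD, l3_zD]; rfl
  have k2 : kick (65 / 36) zD 2 = (47 / 97 : ℝ) • (⟨0, 6/13⟩ : ℂ)
      + (260 / 97 : ℝ) • ((0 : ℝ) • (⟨0, -6/13⟩ : ℂ) - (-3 / 13 : ℝ) • (⟨1/2, 5/26⟩ : ℂ)) := by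
    rw [kick_2, ll_zD, ca_D, cb_D, l1_zD, l3_zD]; rfl
  have k3 : kick (65 / 36) zD 3 = (47 / 97 : ℝ) • (⟨1/2, 5/26⟩ : ℂ)
      + (260 / 97 : ℝ) • ((-3 / 13 : ℝ) • (⟨0, 6/13⟩ : ℂ) - (-3 / 13 : ℝ) • (⟨0, -6/13⟩ : ℂ)) := by
    rw [kick_3, ll_zD, ca_D, cb_D, l1_zD, l2_zD]; rfl
  have z0 : zD 0 = ⟨-1/2, 5/26⟩ := rfl
  have z1 : zD 1 = ⟨0, -6/13⟩ := rfl
  have z2 : zD 2 = ⟨0, 6/13⟩ := rfl
  have z3 : zD 3 = ⟨1/2, 5/26⟩ := rfl
  funext i
  fin_cases i
  · change act T (kick (65 / 36) zD) 0 = muD * zD 0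
    rw [actT_0, k0, k1, k2, k3, z0]
    apply Complex.ext <;> simp [muD] <;> norm_num
  · change act T (kick (65 / 36) zD) 1 = muD * zD 1
    rw [actT_1, k0, k1, k2, k3, z1]
    apply Complex.ext <;> simp [muD] <;> norm_num
  · change act T (kick (65 / 36) zD) 2 = muD * zD 2
    rw [actT_2, k0, k1, k2, k3, z2]
    apply Complex.ext <;> simp [muD] <;> norm_num
  · change act T (kick (65 / 36) zD) 3 = muD * zD 3
    rw [actT_3, k0, k1, k2, k3, z3]
    apply Complex.ext <;> simp [muD] <;> norm_num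
  · change act T (kick (65 / 36) zD) 4 = muD * 0
    rw [actT_4, mul_zero]; rfl

theorem wD_tangent : wD ∈ coneTangent zD := by
  constructor
  · simp [herm, Fin.sum_univ_five, wD, zD]
    norm_num
  · simp only [Fin.sum_univ_five, wD, zD]
    apply Complex.ext <;> simp <;> norm_num

theorem wD_ne (r : ℝ) : wD ≠ ((r : ℂ) * Complex.I) • zD := by
  intro h
  have h1 := congrFun h 0
  have h2 := congrFun h 1
  have h3 : (wD 0).im = 0 := by simp [wD]
  have h4 : (wD 1).im = 1 := by simp [wD]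
  rw [h1] at h3
  rw [h2] at h4
  simp [zD] at h3 h4
  try (rw [h3] at h4; norm_num at h4)

theorem dl1_D : dl1 zD wD = -1 / 2 := by simp [dl1, zD, wD]; norm_num
theorem dl2_D : dl2 zD wD = 1 / 2 := by simp [dl2, zD, wD]
theorem dl3_D : dl3 zD wD = 0 := by simp [dl3, zD, wD]

theorem contDiff_ca_line (κ : ℝ) :
    HasDerivAt (fun s : ℝ => ca κ (ll (zD + s • wD))) 0 0 := by
  have h := line_ll zD wD
  rw [l1_zD, l2_zD, l3_zD, dl1_D, dl2_D, dl3_D] at h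
  have h' : HasDerivAt (fun s : ℝ => ll (zD + s • wD)) 0 0 := by
    refine h.congr_deriv ?_; norm_num
  have hd : DifferentiableAt ℝ (ca κ) (ll (zD + (0:ℝ) • wD)) := by
    unfold ca
    have := (den_pos κ (zD + (0:ℝ) • wD)).ne'
    fun_prop (disch := assumption)
  have := hd.hasDerivAt.comp (0:ℝ) h'
  refine this.congr_deriv ?_
  simp

theorem contDiff_cb_line (κ : ℝ) :
    HasDerivAt (fun s : ℝ => cb κ (ll (zD + s • wD))) 0 0 := by
  have h := line_ll zD wD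
  rw [l1_zD, l2_zD, l3_zD, dl1_D, dl2_D, dl3_D] at h
  have h' : HasDerivAt (fun s : ℝ => ll (zD + s • wD)) 0 0 := by
    refine h.congr_deriv ?_; norm_num
  have hd : DifferentiableAt ℝ (cb κ) (ll (zD + (0:ℝ) • wD)) := by
    unfold cb
    have := (den_pos κ (zD + (0:ℝ) • wD)).ne'
    fun_prop (disch := assumption)
  have := hd.hasDerivAt.comp (0:ℝ) h'
  refine this.congr_deriv ?_
  simp

theorem line_coord (i : Fin 5) : HasDerivAt (fun s : ℝ => (zD + s • wD) i) (wD i) 0 := by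
  have : HasDerivAt (fun s : ℝ => zD i + s • wD i) ((1:ℝ) • wD i) 0 :=
    ((hasDerivAt_id (0:ℝ)).smul_const (wD i)).const_add (zD i)
  simpa using this

/-- derivative of the kick at `zD` in direction `wD` -/
noncomputable def dK : Fin 5 → ℂ :=
  ![0,
    (47 / 97 : ℝ) • Complex.I + (260 / 97 : ℝ) • ((1 / 2 : ℝ) • (⟨1/2, 5/26⟩ : ℂ)),
    (47 / 97 : ℝ) • Complex.I + (260 / 97 : ℝ) • ((1 / 2 : ℝ) • (⟨1/2, 5/26⟩ : ℂ)),
    0, 0]

theorem line_kick : HasDerivAt (fun s : ℝ => kick (65 / 36) (zD + s • wD)) dK 0 := by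
  have ha := contDiff_ca_line (65 / 36)
  have hb := contDiff_cb_line (65 / 36)
  have h1 := line_l1 zD wD
  have h2 := line_l2 zD wD
  have h3 := line_l3 zD wD
  rw [dl1_D] at h1
  rw [dl2_D] at h2
  rw [dl3_D] at h3
  have hz := line_coord
  have e0 : zD + (0:ℝ) • wD = zD := by simp
  have z1 : zD 1 = ⟨0, -6/13⟩ := rfl
  have z2 : zD 2 = ⟨0, 6/13⟩ := rfl
  have z3 : zD 3 = ⟨1/2, 5/26⟩ := rfl
  have w1 : wD 1 = Complex.I := rfl
  have w2 : wD 2 = Complex.I := rfl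
  have w3 : wD 3 = 0 := rfl
  rw [hasDerivAt_pi]
  intro i
  fin_cases i
  · exact hz 0
  · have h := (ha.smul (hz 1)).add (hb.smul ((h2.smul (hz 3)).sub (h3.smul (hz 2))))
    change HasDerivAt _ ((47 / 97 : ℝ) • Complex.I
      + (260 / 97 : ℝ) • ((1 / 2 : ℝ) • (⟨1/2, 5/26⟩ : ℂ))) 0
    refine h.congr_deriv ?_
    simp only [e0, ll_zD, ca_D, cb_D, l1_zD, l2_zD, l3_zD, z1, z2, z3, w1, w2, w3, Pi.smul_apply]
    apply Complex.ext <;> simp
  · have h := (ha.smul (hz 2)).add (hb.smul ((h3.smul (hz 1)).sub (h1.smul (hz 3))))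
    change HasDerivAt _ ((47 / 97 : ℝ) • Complex.I
      + (260 / 97 : ℝ) • ((1 / 2 : ℝ) • (⟨1/2, 5/26⟩ : ℂ))) 0
    refine h.congr_deriv ?_
    simp only [e0, ll_zD, ca_D, cb_D, l1_zD, l2_zD, l3_zD, z1, z2, z3, w1, w2, w3, Pi.smul_apply]
    apply Complex.ext <;> simp <;> norm_num
  · have h := (ha.smul (hz 3)).add (hb.smul ((h1.smul (hz 2)).sub (h2.smul (hz 1))))
    change HasDerivAt _ (0 : ℂ) 0
    refine h.congr_deriv ?_
    simp only [e0, ll_zD, ca_D, cb_D, l1_zD, l2_zD, l3_zD, z1, z2, z3, w1, w2, w3, Pi.smul_apply]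
    apply Complex.ext <;> simp <;> norm_num
  · exact hz 4

theorem act_dK : act T dK = muD • wD := by
  have k0 : dK 0 = 0 := rfl
  have k1 : dK 1 = (47 / 97 : ℝ) • Complex.I + (260 / 97 : ℝ) • ((1 / 2 : ℝ) • (⟨1/2, 5/26⟩ : ℂ)) := rfl
  have k2 : dK 2 = (47 / 97 : ℝ) • Complex.I + (260 / 97 : ℝ) • ((1 / 2 : ℝ) • (⟨1/2, 5/26⟩ : ℂ)) := rfl
  have k3 : dK 3 = 0 := rfl
  have k4 : dK 4 = 0 := rfl
  funext i
  fin_cases i
  · change act T dK 0 = muD * 0
    rw [actT_0, k0, k1, k2, k3]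
    apply Complex.ext <;> simp
  · change act T dK 1 = muD * Complex.I
    rw [actT_1, k0, k1, k2, k3]
    apply Complex.ext <;> simp [muD] <;> norm_num
  · change act T dK 2 = muD * Complex.I
    rw [actT_2, k0, k1, k2, k3]
    apply Complex.ext <;> simp [muD] <;> norm_num
  · change act T dK 3 = muD * 0
    rw [actT_3, k0, k1, k2, k3]
    apply Complex.ext <;> simp
  · change act T dK 4 = muD * 0
    rw [actT_4, k4, mul_zero]

theorem contDiff_Phi : ContDiff ℝ (⊤ : ℕ∞) Phi := by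
  have h : ContDiff ℝ (⊤ : ℕ∞) (fun z : Fin 5 → ℂ => kick (65 / 36) z) :=
    contDiff_kick.comp (contDiff_prodMk_right (65 / 36 : ℝ))
  exact contDiff_act (M := fun _ => T) (fun _ _ => contDiff_const) h

theorem fderiv_Phi : fderiv ℝ Phi zD wD = muD • wD := by
  have hd : DifferentiableAt ℝ Phi zD := (contDiff_Phi.differentiable (by simp)).differentiableAt
  rw [← hd.lineDeriv_eq_fderiv]
  apply HasLineDerivAt.lineDeriv
  change HasDerivAt (fun s : ℝ => act T (kick (65 / 36) (zD + s • wD))) (muD • wD) 0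
  have h := hasDerivAt_act (M := fun _ => T) (M' := 0) (t := 0)
    (fun i j => hasDerivAt_const _ _) line_kick
  refine h.congr_deriv ?_
  rw [act_dK]
  have : act 0 (kick (65 / 36) (zD + (0:ℝ) • wD)) = 0 := by
    funext i; simp [act]
  change act 0 (kick (65 / 36) (zD + (0:ℝ) • wD)) + muD • wD = _
  rw [this, zero_add]

theorem degenerate (L : HamiltonianConeLift) (hL : ∀ z, L.Ψ (1, z) = Phi z) :
    HasDegenerateFixedPoint L := by
  refine ⟨zD, zD_mem, muD, by rw [hL, Phi_zD], wD, wD_tangent, wD_ne, 0, ?_⟩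
  have : (fun x : Fin 5 → ℂ => L.Ψ (1, x)) = Phi := funext hL
  rw [this, fderiv_Phi]
  simp

end Crest.Agent.R205.Ck
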