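import Crest.Agent.R205.CkMain

set_option autoImplicit false

namespace Crest.Agent.R205.Ck

open Crest.GeometryTopology.Quadric

theorem Phi_mem {z : Fin 5 → ℂ} (hz : z ∈ unitCone) : Phi z ∈ unitCone := by
  have := Lift.mapsTo_cone 1 z hz
  rwa [Lift_one] at this

theorem herm_smul_smul (c : ℂ) (z : Fin 5 → ℂ) :
    herm (c • z) (c • z) = (starRingEnd ℂ c * c) * herm z z := by
  unfold herm
  rw [Finset.mul_sum]
  refine Finset.sum_congr rfl fun j _ => ?_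
  simp only [Pi.smul_apply, smul_eq_mul, map_mul]; ring

theorem norm_of_smul {z y : Fin 5 → ℂ} (hz : z ∈ unitCone) (hy : y ∈ unitCone) {μ : ℂ}
    (h : y = μ • z) : ‖μ‖ = 1 := by
  have h1 := hy.1
  rw [h, herm_smul_smul, hz.1, mul_one, mul_comm, Complex.mul_conj] at h1
  have h2 : Complex.normSq μ = 1 := by exact_mod_cast h1
  rw [Complex.normSq_eq_norm_sq] at h2
  have h3 : 0 ≤ ‖μ‖ := norm_nonneg _
  nlinarith

theorem ll_le {z : Fin 5 → ℂ} (hz : z ∈ unitCone) : ll z ≤ 1 / 4 := by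
  rw [mem_cone_iff] at hz
  obtain ⟨h1, h2, _⟩ := hz
  have hx : (z 1).re ^ 2 + (z 2).re ^ 2 + (z 3).re ^ 2 ≤ 1 / 2 := by
    nlinarith [sq_nonneg (z 0).re, sq_nonneg (z 4).re]
  have hy : (z 1).im ^ 2 + (z 2).im ^ 2 + (z 3).im ^ 2 ≤ 1 / 2 := by
    nlinarith [sq_nonneg (z 0).im, sq_nonneg (z 4).im]
  have key : ll z = ((z 1).re ^ 2 + (z 2).re ^ 2 + (z 3).re ^ 2) *
      ((z 1).im ^ 2 + (z 2).im ^ 2 + (z 3).im ^ 2) -
      ((z 1).re * (z 1).im + (z 2).re * (z 2).im + (z 3).re * (z 3).im) ^ 2 := by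
    unfold ll l1 l2 l3; ring
  have hx0 : 0 ≤ (z 1).re ^ 2 + (z 2).re ^ 2 + (z 3).re ^ 2 := by positivity
  have hy0 : 0 ≤ (z 1).im ^ 2 + (z 2).im ^ 2 + (z 3).im ^ 2 := by positivity
  have := mul_le_mul hx hy hy0 (by norm_num)
  nlinarith [sq_nonneg ((z 1).re * (z 1).im + (z 2).re * (z 2).im + (z 3).re * (z 3).im)]

theorem neg_aux (a0 a1 a2 a3 b0 b1 b2 b3 : ℝ) :
    a0 * (-144/169 * a0 + 60/169 * a1 - 60/169 * a2 + 25/169 * a3)
      + b0 * (-144/169 * b0 + 60/169 * b1 - 60/169 * b2 + 25/169 * b3)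
      + (a1 * (-60/169 * a0 - 144/169 * a1 - 25/169 * a2 - 60/169 * a3)
      + b1 * (-60/169 * b0 - 144/169 * b1 - 25/169 * b2 - 60/169 * b3))
      + (a2 * (60/169 * a0 - 25/169 * a1 - 144/169 * a2 + 60/169 * a3)
      + b2 * (60/169 * b0 - 25/169 * b1 - 144/169 * b2 + 60/169 * b3))
      + (a3 * (25/169 * a0 + 60/169 * a1 - 60/169 * a2 - 144/169 * a3)
      + b3 * (25/169 * b0 + 60/169 * b1 - 60/169 * b2 - 144/169 * b3)) ≤ 0 := by
  have hQ : 0 ≤ 1 / 169 * (119 * (a0 ^ 2 + a1 ^ 2 + a2 ^ 2 + a3 ^ 2)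
      + 119 * (b0 ^ 2 + b1 ^ 2 + b2 ^ 2 + b3 ^ 2)
      + 25 * ((a0 - a3) ^ 2 + (a1 + a2) ^ 2 + (b0 - b3) ^ 2 + (b1 + b2) ^ 2)) := by positivity
  refine le_of_eq_of_le ?_ (neg_nonpos.2 hQ)
  ring

theorem dot_act_nonpos (w : Fin 5 → ℂ) :
    (w 0).re * (act T w 0).re + (w 0).im * (act T w 0).im
      + ((w 1).re * (act T w 1).re + (w 1).im * (act T w 1).im)
      + ((w 2).re * (act T w 2).re + (w 2).im * (act T w 2).im)
      + ((w 3).re * (act T w 3).re + (w 3).im * (act T w 3).im) ≤ 0 := by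
  rw [actT_re0, actT_re1, actT_re2, actT_re3, actT_im0, actT_im1, actT_im2, actT_im3]
  exact neg_aux _ _ _ _ _ _ _ _

theorem dot_kick (κ : ℝ) (z : Fin 5 → ℂ) :
    (kick κ z 0).re * (z 0).re + (kick κ z 0).im * (z 0).im
      + ((kick κ z 1).re * (z 1).re + (kick κ z 1).im * (z 1).im)
      + ((kick κ z 2).re * (z 2).re + (kick κ z 2).im * (z 2).im)
      + ((kick κ z 3).re * (z 3).re + (kick κ z 3).im * (z 3).im) =
      (z 0).re ^ 2 + (z 0).im ^ 2 + ca κ (ll z) *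
        ((z 1).re ^ 2 + (z 1).im ^ 2 + ((z 2).re ^ 2 + (z 2).im ^ 2)
          + ((z 3).re ^ 2 + (z 3).im ^ 2)) := by
  rw [kick_re1, kick_re2, kick_re3, kick_im1, kick_im2, kick_im3, kick_0]
  ring

theorem sq_zero_aux {a b c d e f : ℝ} (h : a ^ 2 + b ^ 2 + (c ^ 2 + d ^ 2) + (e ^ 2 + f ^ 2) = 0) :
    a = 0 ∧ b = 0 ∧ c = 0 ∧ d = 0 ∧ e = 0 ∧ f = 0 := by
  have ha := sq_nonneg a
  have hb := sq_nonneg b
  have hc := sq_nonneg c
  have hd := sq_nonneg d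
  have he := sq_nonneg e
  have hf := sq_nonneg f
  refine ⟨?_, ?_, ?_, ?_, ?_, ?_⟩ <;>
  · apply pow_eq_zero_iff (two_ne_zero) |>.1
    linarith

theorem z4_of_fixed {z : Fin 5 → ℂ} (hz : z ∈ unitCone) {μ : ℂ}
    (h : Phi z = μ • z) : z 4 = 0 := by
  by_contra h4
  have hμ : μ = 1 := by
    have h5 : Phi z 4 = z 4 := by
      change act T (kick (65 / 36) z) 4 = _
      rw [actT_4, kick_4]
    rw [h] at h5
    simp only [Pi.smul_apply, smul_eq_mul] at h5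
    exact mul_right_cancel₀ h4 (by rw [h5, one_mul])
  rw [hμ, one_smul] at h
  have hll := ll_le hz
  have hca : 0 < ca (65 / 36) (ll z) := by
    unfold ca
    have hD := den_pos (65 / 36) z
    refine mul_pos ?_ (inv_pos.2 hD)
    nlinarith
  have neg := dot_act_nonpos (kick (65 / 36) z)
  change _ * (Phi z 0).re + _ * (Phi z 0).im + (_ * (Phi z 1).re + _ * (Phi z 1).im)
    + (_ * (Phi z 2).re + _ * (Phi z 2).im) + (_ * (Phi z 3).re + _ * (Phi z 3).im) ≤ 0 at neg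
  rw [h, dot_kick] at neg
  have hv : 0 ≤ (z 1).re ^ 2 + (z 1).im ^ 2 + ((z 2).re ^ 2 + (z 2).im ^ 2)
          + ((z 3).re ^ 2 + (z 3).im ^ 2) := by positivity
  have h0r := sq_nonneg (z 0).re
  have h0i := sq_nonneg (z 0).im
  have hv0 : (z 1).re ^ 2 + (z 1).im ^ 2 + ((z 2).re ^ 2 + (z 2).im ^ 2)
          + ((z 3).re ^ 2 + (z 3).im ^ 2) = 0 := by
    by_contra hne
    have hpos := mul_pos hca (lt_of_le_of_ne hv (Ne.symm hne))
    linarith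
  rw [hv0, mul_zero, add_zero] at neg
  have s0r : (z 0).re = 0 := by
    apply pow_eq_zero_iff (two_ne_zero) |>.1; linarith
  have s0i : (z 0).im = 0 := by
    apply pow_eq_zero_iff (two_ne_zero) |>.1; linarith
  obtain ⟨s1r, s1i, s2r, s2i, s3r, s3i⟩ := sq_zero_aux hv0
  rw [mem_cone_iff] at hz
  obtain ⟨g1, g2, g3⟩ := hz
  rw [s0r, s0i, s1r, s1i, s2r, s2i, s3r, s3i] at g1 g2 g3
  have u1 : (z 4).re ^ 2 = 1 / 2 := by linarith
  have u2 : (z 4).im ^ 2 = 1 / 2 := by linarith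
  have u3 : (z 4).re * (z 4).im = 0 := by linarith
  have u4 : (z 4).re ^ 2 * (z 4).im ^ 2 = 0 := by rw [← mul_pow, u3]; norm_num
  rw [u1, u2] at u4
  norm_num at u4

/-- The degenerate fixed point. -/
noncomputable def zD : Fin 5 → ℂ :=
  ![⟨-1/2, 5/26⟩, ⟨0, -6/13⟩, ⟨0, 6/13⟩, ⟨1/2, 5/26⟩, 0]

/-- The two other fixed points, `r ^ 2 = 482`. -/
noncomputable def zR (r : ℝ) : Fin 5 → ℂ :=
  ![⟨-1565/8138, (2197 - 144 * r)/8138⟩, ⟨3756/8138, -60*r/8138⟩, ⟨-3756/8138, 60*r/8138⟩,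
    ⟨-1565/8138, -(2197 + 144 * r)/8138⟩, 0]

theorem zD_mem : zD ∈ unitCone := by
  rw [mem_cone_iff]
  simp [zD]
  norm_num

theorem zR_mem {r : ℝ} (hr : r ^ 2 = 482) : zR r ∈ unitCone := by
  rw [mem_cone_iff]
  have h4 : zR r 4 = 0 := rfl
  have h0 : zR r 0 = ⟨-1565/8138, (2197 - 144 * r)/8138⟩ := rfl
  have h1 : zR r 1 = ⟨3756/8138, -60*r/8138⟩ := rfl
  have h2 : zR r 2 = ⟨-3756/8138, 60*r/8138⟩ := rfl
  have h3 : zR r 3 = ⟨-1565/8138, -(2197 + 144 * r)/8138⟩ := rfl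
  rw [h0, h1, h2, h3, h4]
  simp only [Complex.zero_re, Complex.zero_im]
  refine ⟨?_, ?_, ?_⟩
  · linear_combination (48672 / 66227044) * hr
  · linear_combination (-48672 / 66227044) * hr
  · ring

end Crest.Agent.R205.Ck
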