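import Crest.Agent.R205.CkEnd

set_option autoImplicit false

namespace Crest.Agent.R205.Ck

open Crest.GeometryTopology.Quadric

theorem l1_zD : l1 zD = -3 / 13 := by simp [l1, zD]; norm_num
theorem l2_zD : l2 zD = -3 / 13 := by simp [l2, zD]; norm_num
theorem l3_zD : l3 zD = 0 := by simp [l3, zD]
theorem k1_zD : k1 zD = 3 / 13 := by simp [k1, zD]; norm_num
theorem k2_zD : k2 zD = -3 / 13 := by simp [k2, zD]; norm_num
theorem k3_zD : k3 zD = -5 / 26 := by simp [k3, zD]; norm_num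

theorem l1_zR (r : ℝ) : l1 (zR r) = (39 + 3 * r) / 313 := by simp [l1, zR]; ring
theorem l2_zR (r : ℝ) : l2 (zR r) = (39 + 3 * r) / 313 := by simp [l2, zR]; ring
theorem l3_zR (r : ℝ) : l3 (zR r) = 0 := by simp [l3, zR]; ring
theorem k1_zR {r : ℝ} (hr : r ^ 2 = 482) : k1 (zR r) = (-39 + 3 * r) / 313 := by
  simp [k1, zR]; linear_combination (0 : ℝ) * hr
theorem k2_zR {r : ℝ} (hr : r ^ 2 = 482) : k2 (zR r) = -((-39 + 3 * r) / 313) := by
  simp [k2, zR]; linear_combination (0 : ℝ) * hr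
theorem k3_zR (r : ℝ) : k3 (zR r) = 65 / 626 := by simp [k3, zR]; ring

theorem zD_0 : zD 0 ≠ 0 := by
  intro h
  have : (zD 0).re = 0 := by rw [h]; simp
  simp [zD] at this
theorem zR_0 (r : ℝ) : zR r 0 ≠ 0 := by
  intro h
  have : (zR r 0).re = 0 := by rw [h]; simp
  simp [zR] at this

theorem fixed_zD : ∃ μ : ℂ, Phi zD = μ • zD := by
  apply fixed_of_biv zD_mem rfl zD_0
  · rw [l1_zD, l2_zD]
  · rw [k2_zD, k1_zD]; norm_num
  · exact l3_zD
  · rw [k3_zD, l1_zD, k1_zD]; norm_num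
  · rw [l1_zD, k1_zD]; norm_num

theorem fixed_zR {r : ℝ} (hr : r ^ 2 = 482) : ∃ μ : ℂ, Phi (zR r) = μ • zR r := by
  apply fixed_of_biv (zR_mem hr) rfl (zR_0 r)
  · rw [l1_zR, l2_zR]
  · rw [k2_zR hr, k1_zR hr]
  · exact l3_zR r
  · rw [k3_zR, l1_zR, k1_zR hr]; ring
  · rw [l1_zR, k1_zR hr]; linear_combination (-65 / 2 / 97969) * hr

theorem span_eq_of_smul {z y : Fin 5 → ℂ} (hz : z ∈ unitCone) (hy : y ∈ unitCone) {μ : ℂ}
    (h : y = μ • z) : Submodule.span ℂ {y} = Submodule.span ℂ {z} := by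
  have hμ := norm_of_smul hz hy h
  have h0 : μ ≠ 0 := by
    intro h0; rw [h0, norm_zero] at hμ; exact zero_ne_one hμ
  rw [h]
  exact Submodule.span_singleton_smul_eq (IsUnit.mk0 μ h0) z

theorem l1_eq_of_span {z y : Fin 5 → ℂ} (hz : z ∈ unitCone) (hy : y ∈ unitCone)
    (h : Submodule.span ℂ {y} = Submodule.span ℂ {z}) : l1 y = l1 z := by
  have h1 : y ∈ Submodule.span ℂ {z} := by
    rw [← h]; exact Submodule.mem_span_singleton_self y
  obtain ⟨μ, hμ⟩ := Submodule.mem_span_singleton.1 h1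
  have hn := norm_of_smul hz hy hμ.symm
  rw [← hμ, l1_smul' hn]

theorem fixedLines_eq (L : HamiltonianConeLift) (hL : ∀ z, L.Ψ (1, z) = Phi z) :
    fixedLines L = {Submodule.span ℂ {zD}, Submodule.span ℂ {zR (Real.sqrt 482)},
      Submodule.span ℂ {zR (-Real.sqrt 482)}} := by
  have hs : Real.sqrt 482 ^ 2 = 482 := Real.sq_sqrt (by norm_num)
  have hs' : (-Real.sqrt 482) ^ 2 = 482 := by rw [neg_sq]; exact hs
  ext ℓ
  simp only [Set.mem_insert_iff, Set.mem_singleton_iff]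
  constructor
  · rintro ⟨z, hz, rfl, hfix⟩
    rw [hL] at hfix
    obtain ⟨μ, hμ⟩ := Submodule.mem_span_singleton.1 hfix
    have h : Phi z = μ • z := hμ.symm
    have hn := norm_of_smul hz (Phi_mem hz) h
    have h4 := z4_of_fixed hz h
    rcases biv_of_fixed hz h4 hn h with ⟨a1, a2, a3, a4, a5, a6⟩ | ⟨a1, a2, a3, a4, a5, a6⟩
    · left
      refine span_eq_of_smul zD_mem hz (eq_smul_of_biv hz zD_mem h4 rfl zD_0 ?_ ?_ ?_ ?_ ?_ ?_)
      · rw [a1, l1_zD]
      · rw [a2, l2_zD]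
      · rw [a3, l3_zD]
      · rw [a4, k1_zD]
      · rw [a5, k2_zD]
      · rw [a6, k3_zD]
    · right
      set r : ℝ := 313 * (l1 z + k1 z) / 6 with hr
      have hr2 : r ^ 2 = 482 := by
        rw [hr, div_pow, mul_pow, a6]; norm_num
      have b1 : l1 z = (39 + 3 * r) / 313 := by rw [hr]; linarith
      have b2 : k1 z = (-39 + 3 * r) / 313 := by rw [hr]; linarith
      have hsp : Submodule.span ℂ {z} = Submodule.span ℂ {zR r} := by
        refine span_eq_of_smul (zR_mem hr2) hz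
          (eq_smul_of_biv hz (zR_mem hr2) h4 rfl (zR_0 r) ?_ ?_ ?_ ?_ ?_ ?_)
        · rw [b1, l1_zR]
        · rw [← a1, b1, l2_zR]
        · rw [a3, l3_zR]
        · rw [b2, k1_zR hr2]
        · rw [a2, b2, k2_zR hr2]
        · rw [a4, k3_zR]
      have hcases : r = Real.sqrt 482 ∨ r = -Real.sqrt 482 := by
        rw [← hs] at hr2
        exact sq_eq_sq_iff_eq_or_eq_neg.1 hr2
      rcases hcases with h | h
      · left; rw [hsp, h]
      · right; rw [hsp, h]
  · rintro (rfl | rfl | rfl)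
    · refine ⟨zD, zD_mem, rfl, ?_⟩
      obtain ⟨μ, h⟩ := fixed_zD
      rw [hL, h]
      exact Submodule.smul_mem _ _ (Submodule.mem_span_singleton_self _)
    · refine ⟨_, zR_mem hs, rfl, ?_⟩
      obtain ⟨μ, h⟩ := fixed_zR hs
      rw [hL, h]
      exact Submodule.smul_mem _ _ (Submodule.mem_span_singleton_self _)
    · refine ⟨_, zR_mem hs', rfl, ?_⟩
      obtain ⟨μ, h⟩ := fixed_zR hs'
      rw [hL, h]
      exact Submodule.smul_mem _ _ (Submodule.mem_span_singleton_self _)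

theorem fixedLines_ncard (L : HamiltonianConeLift) (hL : ∀ z, L.Ψ (1, z) = Phi z) :
    (fixedLines L).ncard = 3 := by
  have hs : Real.sqrt 482 ^ 2 = 482 := Real.sq_sqrt (by norm_num)
  have hs' : (-Real.sqrt 482) ^ 2 = 482 := by rw [neg_sq]; exact hs
  have hpos : 0 < Real.sqrt 482 := Real.sqrt_pos.2 (by norm_num)
  have hlt : Real.sqrt 482 < 22 := by nlinarith
  rw [Set.ncard_eq_three]
  refine ⟨_, _, _, ?_, ?_, ?_, fixedLines_eq L hL⟩
  · intro h
    have := l1_eq_of_span (zR_mem hs) zD_mem h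
    rw [l1_zD, l1_zR] at this
    have h2 : (39 + 3 * Real.sqrt 482) / 313 > 0 := by positivity
    linarith
  · intro h
    have := l1_eq_of_span (zR_mem hs') zD_mem h
    rw [l1_zD, l1_zR] at this
    have : (39 + 3 * -Real.sqrt 482) = -3 / 13 * 313 := by linarith
    nlinarith
  · intro h
    have := l1_eq_of_span (zR_mem hs') (zR_mem hs) h
    rw [l1_zR, l1_zR] at this
    linarith

end Crest.Agent.R205.Ck
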