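import Crest.Agent.R205.CkLift

set_option autoImplicit false

namespace Crest.Agent.R205.Ck

open Crest.GeometryTopology.Quadric

def k1 (z : Fin 5 → ℂ) : ℝ := (z 0).re * (z 1).im - (z 0).im * (z 1).re
def k2 (z : Fin 5 → ℂ) : ℝ := (z 0).re * (z 2).im - (z 0).im * (z 2).re
def k3 (z : Fin 5 → ℂ) : ℝ := (z 0).re * (z 3).im - (z 0).im * (z 3).re

theorem actT_0 (w : Fin 5 → ℂ) : act T w 0 =
    -144/169 * w 0 + 60/169 * w 1 - 60/169 * w 2 + 25/169 * w 3 := by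
  simp [act, T, Fin.sum_univ_five]; ring
theorem actT_1 (w : Fin 5 → ℂ) : act T w 1 =
    -60/169 * w 0 - 144/169 * w 1 - 25/169 * w 2 - 60/169 * w 3 := by
  simp [act, T, Fin.sum_univ_five]; ring
theorem actT_2 (w : Fin 5 → ℂ) : act T w 2 =
    60/169 * w 0 - 25/169 * w 1 - 144/169 * w 2 + 60/169 * w 3 := by
  simp [act, T, Fin.sum_univ_five]; ring
theorem actT_3 (w : Fin 5 → ℂ) : act T w 3 =
    25/169 * w 0 + 60/169 * w 1 - 60/169 * w 2 - 144/169 * w 3 := by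
  simp [act, T, Fin.sum_univ_five]; ring
theorem actT_4 (w : Fin 5 → ℂ) : act T w 4 = w 4 := by
  simp [act, T, Fin.sum_univ_five]

theorem actT_re0 (w : Fin 5 → ℂ) : (act T w 0).re =
    -144/169 * (w 0).re + 60/169 * (w 1).re - 60/169 * (w 2).re + 25/169 * (w 3).re := by
  simp [act, T, Fin.sum_univ_five]; ring
theorem actT_re1 (w : Fin 5 → ℂ) : (act T w 1).re =
    -60/169 * (w 0).re - 144/169 * (w 1).re - 25/169 * (w 2).re - 60/169 * (w 3).re := by
  simp [act, T, Fin.sum_univ_five]; ring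
theorem actT_re2 (w : Fin 5 → ℂ) : (act T w 2).re =
    60/169 * (w 0).re - 25/169 * (w 1).re - 144/169 * (w 2).re + 60/169 * (w 3).re := by
  simp [act, T, Fin.sum_univ_five]; ring
theorem actT_re3 (w : Fin 5 → ℂ) : (act T w 3).re =
    25/169 * (w 0).re + 60/169 * (w 1).re - 60/169 * (w 2).re - 144/169 * (w 3).re := by
  simp [act, T, Fin.sum_univ_five]; ring
theorem actT_im0 (w : Fin 5 → ℂ) : (act T w 0).im =
    -144/169 * (w 0).im + 60/169 * (w 1).im - 60/169 * (w 2).im + 25/169 * (w 3).im := by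
  simp [act, T, Fin.sum_univ_five]; ring
theorem actT_im1 (w : Fin 5 → ℂ) : (act T w 1).im =
    -60/169 * (w 0).im - 144/169 * (w 1).im - 25/169 * (w 2).im - 60/169 * (w 3).im := by
  simp [act, T, Fin.sum_univ_five]; ring
theorem actT_im2 (w : Fin 5 → ℂ) : (act T w 2).im =
    60/169 * (w 0).im - 25/169 * (w 1).im - 144/169 * (w 2).im + 60/169 * (w 3).im := by
  simp [act, T, Fin.sum_univ_five]; ring
theorem actT_im3 (w : Fin 5 → ℂ) : (act T w 3).im =
    25/169 * (w 0).im + 60/169 * (w 1).im - 60/169 * (w 2).im - 144/169 * (w 3).im := by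
  simp [act, T, Fin.sum_univ_five]; ring

section biv
variable (w : Fin 5 → ℂ)

theorem u1_T : l1 (act T w) + k1 (act T w) = l1 w + k1 w := by
  simp only [l1, k1, actT_re0, actT_re1, actT_re2, actT_re3, actT_im0, actT_im1, actT_im2, actT_im3]
  ring
theorem u2_T : l2 (act T w) + k2 (act T w) =
    119/169 * (l2 w + k2 w) - 120/169 * (l3 w + k3 w) := by
  simp only [l2, k2, l3, k3, actT_re0, actT_re1, actT_re2, actT_re3, actT_im0, actT_im1, actT_im2,
    actT_im3]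
  ring
theorem u3_T : l3 (act T w) + k3 (act T w) =
    120/169 * (l2 w + k2 w) + 119/169 * (l3 w + k3 w) := by
  simp only [l2, k2, l3, k3, actT_re0, actT_re1, actT_re2, actT_re3, actT_im0, actT_im1, actT_im2,
    actT_im3]
  ring
theorem v1_T : l1 (act T w) - k1 (act T w) =
    120/169 * (l3 w - k3 w) + 119/169 * (l1 w - k1 w) := by
  simp only [l1, k1, l3, k3, actT_re0, actT_re1, actT_re2, actT_re3, actT_im0, actT_im1, actT_im2,
    actT_im3]
  ring
theorem v2_T : l2 (act T w) - k2 (act T w) = l2 w - k2 w := by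
  simp only [l2, k2, actT_re0, actT_re1, actT_re2, actT_re3, actT_im0, actT_im1, actT_im2, actT_im3]
  ring
theorem v3_T : l3 (act T w) - k3 (act T w) =
    119/169 * (l3 w - k3 w) - 120/169 * (l1 w - k1 w) := by
  simp only [l1, k1, l3, k3, actT_re0, actT_re1, actT_re2, actT_re3, actT_im0, actT_im1, actT_im2,
    actT_im3]
  ring

end biv

theorem k1_kick (κ : ℝ) (z : Fin 5 → ℂ) : k1 (kick κ z) =
    ca κ (ll z) * k1 z + cb κ (ll z) * (l2 z * k3 z - l3 z * k2 z) := by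
  rw [k1, kick_0, kick_re1, kick_im1]; unfold k1 k2 k3; ring
theorem k2_kick (κ : ℝ) (z : Fin 5 → ℂ) : k2 (kick κ z) =
    ca κ (ll z) * k2 z + cb κ (ll z) * (l3 z * k1 z - l1 z * k3 z) := by
  rw [k2, kick_0, kick_re2, kick_im2]; unfold k1 k2 k3; ring
theorem k3_kick (κ : ℝ) (z : Fin 5 → ℂ) : k3 (kick κ z) =
    ca κ (ll z) * k3 z + cb κ (ll z) * (l1 z * k2 z - l2 z * k1 z) := by
  rw [k3, kick_0, kick_re3, kick_im3]; unfold k1 k2 k3; ring

theorem k1_smul' {c : ℂ} (hc : ‖c‖ = 1) (z : Fin 5 → ℂ) : k1 (c • z) = k1 z := by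
  have h := norm_one_sq hc
  have : k1 (c • z) = (c.re ^ 2 + c.im ^ 2) * k1 z := by
    simp only [k1, Pi.smul_apply, smul_eq_mul, Complex.mul_re, Complex.mul_im]; ring
  rw [this, h, one_mul]
theorem k2_smul' {c : ℂ} (hc : ‖c‖ = 1) (z : Fin 5 → ℂ) : k2 (c • z) = k2 z := by
  have h := norm_one_sq hc
  have : k2 (c • z) = (c.re ^ 2 + c.im ^ 2) * k2 z := by
    simp only [k2, Pi.smul_apply, smul_eq_mul, Complex.mul_re, Complex.mul_im]; ring
  rw [this, h, one_mul]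
theorem k3_smul' {c : ℂ} (hc : ‖c‖ = 1) (z : Fin 5 → ℂ) : k3 (c • z) = k3 z := by
  have h := norm_one_sq hc
  have : k3 (c • z) = (c.re ^ 2 + c.im ^ 2) * k3 z := by
    simp only [k3, Pi.smul_apply, smul_eq_mul, Complex.mul_re, Complex.mul_im]; ring
  rw [this, h, one_mul]

theorem l_dot_k (z : Fin 5 → ℂ) : l1 z * k1 z + l2 z * k2 z + l3 z * k3 z = 0 := by
  unfold l1 l2 l3 k1 k2 k3; ring

/-- On the part `z 4 = 0` of the cone the bivector has norm `1/2`. -/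
theorem lk_norm {z : Fin 5 → ℂ} (hz : z ∈ unitCone) (h4 : z 4 = 0) :
    l1 z ^ 2 + l2 z ^ 2 + l3 z ^ 2 + (k1 z ^ 2 + k2 z ^ 2 + k3 z ^ 2) = 1 / 4 := by
  rw [mem_cone_iff] at hz
  obtain ⟨h1, h2, h3⟩ := hz
  rw [h4] at h1 h2 h3
  simp only [Complex.zero_re, Complex.zero_im] at h1 h2 h3
  have hx : (z 0).re ^ 2 + (z 1).re ^ 2 + (z 2).re ^ 2 + (z 3).re ^ 2 = 1 / 2 := by
    linear_combination (h1 + h2) / 2
  have hy : (z 0).im ^ 2 + (z 1).im ^ 2 + (z 2).im ^ 2 + (z 3).im ^ 2 = 1 / 2 := by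
    linear_combination (h1 - h2) / 2
  have hxy : (z 0).re * (z 0).im + (z 1).re * (z 1).im + (z 2).re * (z 2).im
      + (z 3).re * (z 3).im = 0 := by linear_combination h3
  have key : l1 z ^ 2 + l2 z ^ 2 + l3 z ^ 2 + (k1 z ^ 2 + k2 z ^ 2 + k3 z ^ 2) =
      ((z 0).re ^ 2 + (z 1).re ^ 2 + (z 2).re ^ 2 + (z 3).re ^ 2) *
      ((z 0).im ^ 2 + (z 1).im ^ 2 + (z 2).im ^ 2 + (z 3).im ^ 2) -
      ((z 0).re * (z 0).im + (z 1).re * (z 1).im + (z 2).re * (z 2).im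
      + (z 3).re * (z 3).im) ^ 2 := by
    unfold l1 l2 l3 k1 k2 k3; ring
  rw [key, hx, hy, hxy]; norm_num

/-- recovering the point from the bivector -/
theorem conj_mul_1 {z : Fin 5 → ℂ} (hz : z ∈ unitCone) (h4 : z 4 = 0) :
    starRingEnd ℂ (z 0) * z 1 = ⟨2 * (k2 z * l3 z - k3 z * l2 z), k1 z⟩ := by
  rw [mem_cone_iff] at hz
  obtain ⟨h1, h2, h3⟩ := hz
  rw [h4] at h1 h2 h3
  simp only [Complex.zero_re, Complex.zero_im] at h1 h2 h3
  apply Complex.ext
  · simp only [Complex.mul_re, Complex.conj_re, Complex.conj_im]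
    unfold l2 l3 k2 k3
    linear_combination (-((z 0).re * (z 1).re)) * (h1 - h2) - ((z 0).im * (z 1).im) * (h1 + h2)
      + 2 * ((z 0).re * (z 1).im + (z 0).im * (z 1).re) * h3
  · simp only [Complex.mul_im, Complex.conj_re, Complex.conj_im]
    unfold k1; ring
theorem conj_mul_2 {z : Fin 5 → ℂ} (hz : z ∈ unitCone) (h4 : z 4 = 0) :
    starRingEnd ℂ (z 0) * z 2 = ⟨2 * (k3 z * l1 z - k1 z * l3 z), k2 z⟩ := by
  rw [mem_cone_iff] at hz
  obtain ⟨h1, h2, h3⟩ := hz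
  rw [h4] at h1 h2 h3
  simp only [Complex.zero_re, Complex.zero_im] at h1 h2 h3
  apply Complex.ext
  · simp only [Complex.mul_re, Complex.conj_re, Complex.conj_im]
    unfold l1 l3 k1 k3
    linear_combination (-((z 0).re * (z 2).re)) * (h1 - h2) - ((z 0).im * (z 2).im) * (h1 + h2)
      + 2 * ((z 0).re * (z 2).im + (z 0).im * (z 2).re) * h3
  · simp only [Complex.mul_im, Complex.conj_re, Complex.conj_im]
    unfold k2; ring
theorem conj_mul_3 {z : Fin 5 → ℂ} (hz : z ∈ unitCone) (h4 : z 4 = 0) :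
    starRingEnd ℂ (z 0) * z 3 = ⟨2 * (k1 z * l2 z - k2 z * l1 z), k3 z⟩ := by
  rw [mem_cone_iff] at hz
  obtain ⟨h1, h2, h3⟩ := hz
  rw [h4] at h1 h2 h3
  simp only [Complex.zero_re, Complex.zero_im] at h1 h2 h3
  apply Complex.ext
  · simp only [Complex.mul_re, Complex.conj_re, Complex.conj_im]
    unfold l1 l2 k1 k2
    linear_combination (-((z 0).re * (z 3).re)) * (h1 - h2) - ((z 0).im * (z 3).im) * (h1 + h2)
      + 2 * ((z 0).re * (z 3).im + (z 0).im * (z 3).re) * h3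
  · simp only [Complex.mul_im, Complex.conj_re, Complex.conj_im]
    unfold k3; ring
theorem conj_mul_0 {z : Fin 5 → ℂ} (hz : z ∈ unitCone) (h4 : z 4 = 0) :
    (z 0).re ^ 2 + (z 0).im ^ 2 = 2 * (k1 z ^ 2 + k2 z ^ 2 + k3 z ^ 2) := by
  rw [mem_cone_iff] at hz
  obtain ⟨h1, h2, h3⟩ := hz
  rw [h4] at h1 h2 h3
  simp only [Complex.zero_re, Complex.zero_im] at h1 h2 h3
  unfold k1 k2 k3
  linear_combination (-((z 0).re ^ 2)) * (h1 - h2) - ((z 0).im ^ 2) * (h1 + h2)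
      + 4 * ((z 0).re * (z 0).im) * h3

end Crest.Agent.R205.Ck
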