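import Crest.Agent.R205.CkBasic

set_option autoImplicit false

namespace Crest.Agent.R205.Ck

open Crest.GeometryTopology.Quadric

/-- `g s = log (1+s) / s`, extended smoothly over `0`. -/
noncomputable def g : ℝ → ℝ := dslope (fun s : ℝ => Real.log (1 + s)) 0

theorem mul_g (s : ℝ) : s * g s = Real.log (1 + s) := by
  have := sub_smul_dslope (fun s : ℝ => Real.log (1 + s)) 0 s
  simpa [g] using this

theorem g_zero : g 0 = 1 := by
  rw [g, dslope_same]
  have h : HasDerivAt (fun s : ℝ => Real.log (1 + s)) (1 / (1 + 0)) 0 :=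
    ((hasDerivAt_id (0:ℝ)).const_add 1).log (by norm_num)
  rw [h.deriv]; norm_num

theorem contDiffAt_g {s : ℝ} (hs : -1 < s) : ContDiffAt ℝ (⊤ : ℕ∞) g s := by
  by_cases h0 : s = 0
  · subst h0
    have han : AnalyticAt ℝ (fun s : ℝ => Real.log (1 + s)) 0 :=
      AnalyticAt.log (by fun_prop) (by norm_num)
    obtain ⟨p, hp⟩ := han
    have := hp.has_fpower_series_dslope_fslope
    exact (AnalyticAt.contDiffAt ⟨_, this⟩)
  · have h1 : ContDiffAt ℝ (⊤ : ℕ∞) (fun s : ℝ => Real.log (1 + s) / s) s := by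
      refine ContDiffAt.div ?_ contDiffAt_id h0
      refine (contDiffAt_const.add contDiffAt_id).log ?_
      simp only [id_eq]; linarith
    refine h1.congr_of_eventuallyEq ?_
    filter_upwards [isOpen_ne.mem_nhds h0] with x hx
    have hx' : x ≠ 0 := hx
    rw [eq_div_iff hx', mul_comm, mul_g]

/-- Radial profile of the Hamiltonian of the kick. -/
noncomputable def F (κ t s : ℝ) : ℝ := 2 * κ * (s * g ((t * κ) ^ 2 * s))

theorem hasDerivAt_F (κ t s : ℝ) (hs : 0 ≤ s) :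
    HasDerivAt (F κ t) (2 * κ * (1 + (t * κ) ^ 2 * s)⁻¹) s := by
  by_cases h0 : (t * κ) ^ 2 = 0
  · have : F κ t = fun s => 2 * κ * s := by
      funext x; unfold F; rw [h0, zero_mul, g_zero, mul_one]
    rw [this, h0]
    simpa using (hasDerivAt_id s).const_mul (2 * κ)
  · have e : F κ t = fun s => 2 * κ * (Real.log (1 + (t * κ) ^ 2 * s) / (t * κ) ^ 2) := by
      funext x; unfold F
      rw [← mul_g]
      generalize (t * κ) ^ 2 = q at *
      field_simp
    rw [e]
    have hd := den_pos' (t * κ) s hs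
    have h1 : HasDerivAt (fun s : ℝ => Real.log (1 + (t * κ) ^ 2 * s))
        (((t * κ) ^ 2 * 1) / (1 + (t * κ) ^ 2 * s)) s :=
      (((hasDerivAt_id s).const_mul ((t * κ) ^ 2)).const_add 1).log hd.ne'
    have h2 := (h1.div_const ((t * κ) ^ 2)).const_mul (2 * κ)
    refine h2.congr_deriv ?_
    clear h1 h2 e
    generalize (t * κ) ^ 2 = q at *
    field_simp

theorem contDiff_F (κ : ℝ) :
    ContDiff ℝ (⊤ : ℕ∞) (fun p : ℝ × (Fin 5 → ℂ) => F κ p.1 (ll p.2)) := by
  have hll : ContDiff ℝ (⊤ : ℕ∞) (fun p : ℝ × (Fin 5 → ℂ) => ll p.2) := contDiff_ll.comp contDiff_snd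
  have hk : ContDiff ℝ (⊤ : ℕ∞) (fun p : ℝ × (Fin 5 → ℂ) => (p.1 * κ) ^ 2 * ll p.2) :=
    ((contDiff_fst.mul contDiff_const).pow 2).mul hll
  have hg : ContDiff ℝ (⊤ : ℕ∞) (fun p : ℝ × (Fin 5 → ℂ) => g ((p.1 * κ) ^ 2 * ll p.2)) := by
    rw [contDiff_iff_contDiffAt]
    intro p
    have hpos : -1 < (p.1 * κ) ^ 2 * ll p.2 := by
      have := den_pos (p.1 * κ) p.2
      linarith
    exact ContDiffAt.comp p (contDiffAt_g hpos) hk.contDiffAt
  exact contDiff_const.mul (hll.mul hg)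

theorem fderiv_eq_of_line {f : (Fin 5 → ℂ) → ℝ} {y w : Fin 5 → ℂ} {c : ℝ}
    (hf : DifferentiableAt ℝ f y) (h : HasDerivAt (fun s : ℝ => f (y + s • w)) c 0) :
    fderiv ℝ f y w = c := by
  rw [← hf.lineDeriv_eq_fderiv]
  exact HasLineDerivAt.lineDeriv h

def dl1 (y w : Fin 5 → ℂ) : ℝ := (w 2).re * (y 3).im + (y 2).re * (w 3).im
  - (w 3).re * (y 2).im - (y 3).re * (w 2).im
def dl2 (y w : Fin 5 → ℂ) : ℝ := (w 3).re * (y 1).im + (y 3).re * (w 1).im
  - (w 1).re * (y 3).im - (y 1).re * (w 3).im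
def dl3 (y w : Fin 5 → ℂ) : ℝ := (w 1).re * (y 2).im + (y 1).re * (w 2).im
  - (w 2).re * (y 1).im - (y 2).re * (w 1).im

theorem quad_deriv (a b c : ℝ) : HasDerivAt (fun s : ℝ => a + s * b + s ^ 2 * c) b 0 := by
  have h := (((hasDerivAt_id (0:ℝ)).mul_const b).const_add a).add
    (((hasDerivAt_id (0:ℝ)).pow 2).mul_const c)
  refine h.congr_deriv ?_
  simp

theorem line_l1 (y w : Fin 5 → ℂ) : HasDerivAt (fun s : ℝ => l1 (y + s • w)) (dl1 y w) 0 := by
  have e : (fun s : ℝ => l1 (y + s • w)) = fun s => l1 y + s * dl1 y w + s ^ 2 * l1 w := by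
    funext s
    simp only [l1, dl1, Pi.add_apply, Pi.smul_apply, Complex.add_re, Complex.add_im,
      Complex.real_smul, Complex.re_ofReal_mul, Complex.im_ofReal_mul]
    ring
  rw [e]; exact quad_deriv _ _ _

theorem line_l2 (y w : Fin 5 → ℂ) : HasDerivAt (fun s : ℝ => l2 (y + s • w)) (dl2 y w) 0 := by
  have e : (fun s : ℝ => l2 (y + s • w)) = fun s => l2 y + s * dl2 y w + s ^ 2 * l2 w := by
    funext s
    simp only [l2, dl2, Pi.add_apply, Pi.smul_apply, Complex.add_re, Complex.add_im,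
      Complex.real_smul, Complex.re_ofReal_mul, Complex.im_ofReal_mul]
    ring
  rw [e]; exact quad_deriv _ _ _

theorem line_l3 (y w : Fin 5 → ℂ) : HasDerivAt (fun s : ℝ => l3 (y + s • w)) (dl3 y w) 0 := by
  have e : (fun s : ℝ => l3 (y + s • w)) = fun s => l3 y + s * dl3 y w + s ^ 2 * l3 w := by
    funext s
    simp only [l3, dl3, Pi.add_apply, Pi.smul_apply, Complex.add_re, Complex.add_im,
      Complex.real_smul, Complex.re_ofReal_mul, Complex.im_ofReal_mul]
    ring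
  rw [e]; exact quad_deriv _ _ _

theorem line_ll (y w : Fin 5 → ℂ) : HasDerivAt (fun s : ℝ => ll (y + s • w))
    (2 * (l1 y * dl1 y w + l2 y * dl2 y w + l3 y * dl3 y w)) 0 := by
  have h := (((line_l1 y w).pow 2).add ((line_l2 y w).pow 2)).add ((line_l3 y w).pow 2)
  refine h.congr_deriv ?_
  simp
  ring

theorem fderiv_F (κ t : ℝ) (y w : Fin 5 → ℂ) :
    fderiv ℝ (fun x : Fin 5 → ℂ => F κ t (ll x)) y w =
      2 * κ * (1 + (t * κ) ^ 2 * ll y)⁻¹ *
        (2 * (l1 y * dl1 y w + l2 y * dl2 y w + l3 y * dl3 y w)) := by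
  apply fderiv_eq_of_line
  · have h : ContDiff ℝ (⊤ : ℕ∞) (fun x : Fin 5 → ℂ => F κ t (ll x)) :=
      (contDiff_F κ).comp (contDiff_prodMk_right t)
    exact (h.differentiable (by simp)).differentiableAt
  · have h2 := line_ll y w
    have h1 := hasDerivAt_F κ t (ll (y + (0:ℝ) • w)) (ll_nonneg _)
    have h3 := HasDerivAt.comp (0:ℝ) h1 h2
    refine h3.congr_deriv ?_
    simp

/-- The generator direction `L × u`. -/
noncomputable def cr (z u : Fin 5 → ℂ) : Fin 5 → ℂ :=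
  ![0, l2 z • u 3 - l3 z • u 2, l3 z • u 1 - l1 z • u 3, l1 z • u 2 - l2 z • u 1, 0]

theorem hasDerivAt_ca (κ t l : ℝ) (hl : 0 ≤ l) :
    HasDerivAt (fun s => ca (s * κ) l)
      (-(2 * κ * (1 + (t * κ) ^ 2 * l)⁻¹ * (cb (t * κ) l * l))) t := by
  have hd := den_pos' (t * κ) l hl
  unfold ca cb
  have h1 : HasDerivAt (fun s : ℝ => (s * κ) ^ 2 * l) ((2 * (t * κ) * κ) * l) t := by
    have := (((hasDerivAt_id t).mul_const κ).pow 2).mul_const l
    refine this.congr_deriv ?_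
    simp
  have h2 := (h1.const_sub 1).mul ((h1.const_add 1).inv hd.ne')
  refine h2.congr_deriv ?_
  simp only [Pi.inv_apply]
  field_simp
  ring

theorem hasDerivAt_cb (κ t l : ℝ) (hl : 0 ≤ l) :
    HasDerivAt (fun s => cb (s * κ) l)
      (2 * κ * (1 + (t * κ) ^ 2 * l)⁻¹ * ca (t * κ) l) t := by
  have hd := den_pos' (t * κ) l hl
  unfold ca cb
  have h1 : HasDerivAt (fun s : ℝ => (s * κ) ^ 2 * l) ((2 * (t * κ) * κ) * l) t := by
    have := (((hasDerivAt_id t).mul_const κ).pow 2).mul_const l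
    refine this.congr_deriv ?_
    simp
  have h0 : HasDerivAt (fun s : ℝ => 2 * (s * κ)) (2 * (1 * κ)) t :=
    ((hasDerivAt_id t).mul_const κ).const_mul 2
  have h2 := h0.mul ((h1.const_add 1).inv hd.ne')
  refine h2.congr_deriv ?_
  simp only [Pi.inv_apply]
  field_simp
  ring

theorem l_dot (z : Fin 5 → ℂ) : l1 z • z 1 + l2 z • z 2 + l3 z • z 3 = 0 := by
  simp only [Complex.real_smul, l1, l2, l3]
  apply Complex.ext
  · simp; ring
  · simp; ring

theorem hasDerivAt_kick (κ t : ℝ) (z : Fin 5 → ℂ) :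
    HasDerivAt (fun s : ℝ => kick (s * κ) z)
      ((2 * κ * (1 + (t * κ) ^ 2 * ll z)⁻¹) • cr z (kick (t * κ) z)) t := by
  have ha := hasDerivAt_ca κ t (ll z) (ll_nonneg z)
  have hb := hasDerivAt_cb κ t (ll z) (ll_nonneg z)
  have hdot := l_dot z
  simp only [Complex.real_smul] at hdot
  have hll : (ll z : ℂ) = (l1 z : ℂ) ^ 2 + (l2 z : ℂ) ^ 2 + (l3 z : ℂ) ^ 2 := by
    unfold ll; push_cast; ring
  rw [hasDerivAt_pi]
  intro i
  fin_cases i
  · simpa [cr] using hasDerivAt_const t (z 0)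
  · change HasDerivAt (fun s : ℝ => kick (s * κ) z 1)
      ((2 * κ * (1 + (t * κ) ^ 2 * ll z)⁻¹) • (l2 z • kick (t * κ) z 3 - l3 z • kick (t * κ) z 2)) t
    have h := (ha.smul_const (z 1)).add (hb.smul_const (l2 z • z 3 - l3 z • z 2))
    refine h.congr_deriv ?_
    rw [kick_2, kick_3]
    generalize 2 * κ * (1 + (t * κ) ^ 2 * ll z)⁻¹ = q
    generalize ca (t * κ) (ll z) = a
    generalize cb (t * κ) (ll z) = b
    simp only [Complex.real_smul]
    push_cast
    rw [hll]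
    linear_combination (-(q:ℂ) * b * l1 z) * hdot
  · change HasDerivAt (fun s : ℝ => kick (s * κ) z 2)
      ((2 * κ * (1 + (t * κ) ^ 2 * ll z)⁻¹) • (l3 z • kick (t * κ) z 1 - l1 z • kick (t * κ) z 3)) t
    have h := (ha.smul_const (z 2)).add (hb.smul_const (l3 z • z 1 - l1 z • z 3))
    refine h.congr_deriv ?_
    rw [kick_1, kick_3]
    generalize 2 * κ * (1 + (t * κ) ^ 2 * ll z)⁻¹ = q
    generalize ca (t * κ) (ll z) = a
    generalize cb (t * κ) (ll z) = b
    simp only [Complex.real_smul]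
    push_cast
    rw [hll]
    linear_combination (-(q:ℂ) * b * l2 z) * hdot
  · change HasDerivAt (fun s : ℝ => kick (s * κ) z 3)
      ((2 * κ * (1 + (t * κ) ^ 2 * ll z)⁻¹) • (l1 z • kick (t * κ) z 2 - l2 z • kick (t * κ) z 1)) t
    have h := (ha.smul_const (z 3)).add (hb.smul_const (l1 z • z 2 - l2 z • z 1))
    refine h.congr_deriv ?_
    rw [kick_1, kick_2]
    generalize 2 * κ * (1 + (t * κ) ^ 2 * ll z)⁻¹ = q
    generalize ca (t * κ) (ll z) = a
    generalize cb (t * κ) (ll z) = b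
    simp only [Complex.real_smul]
    push_cast
    rw [hll]
    linear_combination (-(q:ℂ) * b * l3 z) * hdot
  · simpa [cr] using hasDerivAt_const t (z 4)

/-- The pairing of `L × y` with `w`. -/
theorem herm_cr (z y w : Fin 5 → ℂ) (h1 : l1 z = l1 y) (h2 : l2 z = l2 y) (h3 : l3 z = l3 y) :
    (herm (cr z y) w).im = l1 y * dl1 y w + l2 y * dl2 y w + l3 y * dl3 y w := by
  unfold herm cr
  rw [Fin.sum_univ_five, h1, h2, h3]
  simp [dl1, dl2, dl3]
  ring

theorem herm_smul_left (r : ℝ) (u w : Fin 5 → ℂ) : herm (r • u) w = r • herm u w := by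
  unfold herm
  rw [Finset.smul_sum]
  refine Finset.sum_congr rfl fun j _ => ?_
  simp [mul_assoc]

/-- The kick isotopy as a Hamiltonian lift. -/
noncomputable def M0 (κ : ℝ) : HamiltonianConeLift where
  Ψ := fun p => kick (p.1 * κ) p.2
  H := fun p => F κ p.1 (ll p.2)
  smooth_Ψ := contDiff_kick.comp ((contDiff_fst.mul contDiff_const).prodMk contDiff_snd)
  smooth_H := contDiff_F κ
  mapsTo_cone := fun t z hz => kick_mem _ z hz
  compatible := fun t z _ c hc => ⟨c, kick_smul _ hc z⟩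
  start := fun z _ => ⟨1, by simp [kick_zero]⟩
  invariant := fun t z _ c hc => by simp only [ll_smul' hc]
  hamilton := by
    intro t _ z _ w _
    simp only
    rw [(hasDerivAt_kick κ t z).deriv, fderiv_F, herm_smul_left, ll_kick,
      Complex.smul_im, herm_cr _ _ _ (l1_kick _ z).symm (l2_kick _ z).symm (l3_kick _ z).symm]
    rw [smul_eq_mul]
    ring

end Crest.Agent.R205.Ck
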