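import Crest.Agent.R205.CkTwist

set_option autoImplicit false

namespace Crest.Agent.R205.Ck

open Crest.GeometryTopology.Quadric

noncomputable def P1 (a : ℝ) (t : ℝ) : Matrix (Fin 5) (Fin 5) ℝ :=
  !![Real.cos (a * t), -Real.sin (a * t), 0, 0, 0;
     Real.sin (a * t), Real.cos (a * t), 0, 0, 0;
     0, 0, Real.cos (a * t), -Real.sin (a * t), 0;
     0, 0, Real.sin (a * t), Real.cos (a * t), 0;
     0, 0, 0, 0, 1]

noncomputable def B1 (a : ℝ) : Matrix (Fin 5) (Fin 5) ℝ :=
  !![0, -a, 0, 0, 0;
     a, 0, 0, 0, 0;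
     0, 0, 0, -a, 0;
     0, 0, a, 0, 0;
     0, 0, 0, 0, 0]

noncomputable def P2 (a : ℝ) (t : ℝ) : Matrix (Fin 5) (Fin 5) ℝ :=
  !![Real.cos (a * t), 0, Real.sin (a * t), 0, 0;
     0, Real.cos (a * t), 0, Real.sin (a * t), 0;
     -Real.sin (a * t), 0, Real.cos (a * t), 0, 0;
     0, -Real.sin (a * t), 0, Real.cos (a * t), 0;
     0, 0, 0, 0, 1]

noncomputable def B2 (a : ℝ) : Matrix (Fin 5) (Fin 5) ℝ :=
  !![0, 0, a, 0, 0;
     0, 0, 0, a, 0;
     -a, 0, 0, 0, 0;
     0, -a, 0, 0, 0;
     0, 0, 0, 0, 0]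

theorem hc (a t : ℝ) : HasDerivAt (fun s => Real.cos (a * s)) (-(a * Real.sin (a * t))) t := by
  have h : HasDerivAt (fun s : ℝ => a * s) (a * 1) t := (hasDerivAt_id t).const_mul a
  have := h.cos
  refine this.congr_deriv ?_
  ring

theorem hs (a t : ℝ) : HasDerivAt (fun s => Real.sin (a * s)) (a * Real.cos (a * t)) t := by
  have h : HasDerivAt (fun s : ℝ => a * s) (a * 1) t := (hasDerivAt_id t).const_mul a
  have := h.sin
  refine this.congr_deriv ?_
  ring

theorem cc (a : ℝ) : ContDiff ℝ (⊤ : ℕ∞) (fun t => Real.cos (a * t)) :=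
  Real.contDiff_cos.comp (contDiff_const.mul contDiff_id)
theorem cs (a : ℝ) : ContDiff ℝ (⊤ : ℕ∞) (fun t => Real.sin (a * t)) :=
  Real.contDiff_sin.comp (contDiff_const.mul contDiff_id)

noncomputable def O1 (a : ℝ) : OPath where
  P := P1 a
  B := B1 a
  smooth := by
    intro i j
    fin_cases i <;> fin_cases j <;>
      simp only [P1] <;> first | exact contDiff_const | exact cc a | exact cs a | exact (cs a).neg
  orth := by
    intro t
    have h := Real.sin_sq_add_cos_sq (a * t)
    ext i j
    fin_cases i <;> fin_cases j <;>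
      simp [P1, Matrix.mul_apply, Fin.sum_univ_five] <;> first | linear_combination h | ring
  skew := by
    ext i j
    fin_cases i <;> fin_cases j <;> simp [B1]
  deriv := by
    intro t i j
    have h1 := hc a t
    have h2 := hs a t
    have h3 := (hs a t).neg
    fin_cases i <;> fin_cases j <;>
      simp [P1, B1, Matrix.mul_apply, Fin.sum_univ_five] <;>
      first
        | exact hasDerivAt_const _ _
        | exact h1
        | exact h2
        | exact h3
  zero := by
    ext i j
    fin_cases i <;> fin_cases j <;> simp [P1]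

noncomputable def O2 (a : ℝ) : OPath where
  P := P2 a
  B := B2 a
  smooth := by
    intro i j
    fin_cases i <;> fin_cases j <;>
      simp only [P2] <;> first | exact contDiff_const | exact cc a | exact cs a | exact (cs a).neg
  orth := by
    intro t
    have h := Real.sin_sq_add_cos_sq (a * t)
    ext i j
    fin_cases i <;> fin_cases j <;>
      simp [P2, Matrix.mul_apply, Fin.sum_univ_five] <;> first | linear_combination h | ring
  skew := by
    ext i j
    fin_cases i <;> fin_cases j <;> simp [B2]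
  deriv := by
    intro t i j
    have h1 := hc a t
    have h2 := hs a t
    have h3 := (hs a t).neg
    fin_cases i <;> fin_cases j <;>
      simp [P2, B2, Matrix.mul_apply, Fin.sum_univ_five] <;>
      first
        | exact hasDerivAt_const _ _
        | exact h1
        | exact h2
        | exact h3
  zero := by
    ext i j
    fin_cases i <;> fin_cases j <;> simp [P2]

noncomputable def be : ℝ := Real.arccos (12 / 13)

theorem cos_be : Real.cos be = 12 / 13 := Real.cos_arccos (by norm_num) (by norm_num)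
theorem sin_be : Real.sin be = 5 / 13 := by
  rw [be, Real.sin_arccos]
  rw [show (1 - (12 / 13 : ℝ) ^ 2) = (5 / 13) ^ 2 by norm_num]
  exact Real.sqrt_sq (by norm_num)

/-- The time-one linear part. -/
noncomputable def T : Matrix (Fin 5) (Fin 5) ℝ :=
  !![-144/169, 60/169, -60/169, 25/169, 0;
     -60/169, -144/169, -25/169, -60/169, 0;
     60/169, -25/169, -144/169, 60/169, 0;
     25/169, 60/169, -60/169, -144/169, 0;
     0, 0, 0, 0, 1]

theorem T_eq : P1 (be + Real.pi) 1 * P2 be 1 = T := by
  have h1 : Real.cos (be + Real.pi) = -(12/13) := by rw [Real.cos_add_pi, cos_be]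
  have h2 : Real.sin (be + Real.pi) = -(5/13) := by rw [Real.sin_add_pi, sin_be]
  ext i j
  fin_cases i <;> fin_cases j <;>
    simp [P1, P2, T, Matrix.mul_apply, Fin.sum_univ_five, h1, h2, cos_be, sin_be] <;> norm_num

noncomputable def Lift : HamiltonianConeLift :=
  twist (O1 (be + Real.pi)) (twist (O2 be) (M0 (65 / 36)))

/-- The time-one map. -/
noncomputable def Phi (z : Fin 5 → ℂ) : Fin 5 → ℂ := act T (kick (65 / 36) z)

theorem Lift_one (z : Fin 5 → ℂ) : Lift.Ψ (1, z) = Phi z := by
  change act (P1 (be + Real.pi) 1) (act (P2 be 1) (kick (1 * (65 / 36)) z)) = _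
  rw [← act_mul, T_eq, one_mul]; rfl

end Crest.Agent.R205.Ck
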