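import Crest.Agent.R205.CkFix

set_option autoImplicit false

namespace Crest.Agent.R205.Ck

open Crest.GeometryTopology.Quadric

theorem ca_eq1 (κ s : ℝ) (hs : 0 ≤ s) : 1 + ca κ s = 2 * (1 + κ ^ 2 * s)⁻¹ := by
  have hd := (den_pos' κ s hs).ne'
  unfold ca; field_simp; ring
theorem ca_eq2 (κ s : ℝ) (hs : 0 ≤ s) : ca κ s = 1 - κ * s * cb κ s := by
  have hd := (den_pos' κ s hs).ne'
  unfold ca cb; field_simp; ring
theorem ca_eq3 (κ s : ℝ) (hs : 0 ≤ s) : κ * (1 + ca κ s) = cb κ s := by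
  have hd := (den_pos' κ s hs).ne'
  unfold ca cb; field_simp; ring

/-- two cone points with the same bivector (and `z 4 = 0`, `z 0 ≠ 0`) are proportional. -/
theorem eq_smul_of_biv {y z : Fin 5 → ℂ} (hy : y ∈ unitCone) (hz : z ∈ unitCone)
    (hy4 : y 4 = 0) (hz4 : z 4 = 0) (hz0 : z 0 ≠ 0)
    (e1 : l1 y = l1 z) (e2 : l2 y = l2 z) (e3 : l3 y = l3 z)
    (f1 : k1 y = k1 z) (f2 : k2 y = k2 z) (f3 : k3 y = k3 z) :
    y = (y 0 / z 0) • z := by
  have a0 := conj_mul_0 hy hy4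
  have b0 := conj_mul_0 hz hz4
  have a1 := conj_mul_1 hy hy4
  have b1 := conj_mul_1 hz hz4
  have a2 := conj_mul_2 hy hy4
  have b2 := conj_mul_2 hz hz4
  have a3 := conj_mul_3 hy hy4
  have b3 := conj_mul_3 hz hz4
  rw [e1, e2, e3, f1, f2, f3] at *
  have c0 : (y 0).re ^ 2 + (y 0).im ^ 2 = (z 0).re ^ 2 + (z 0).im ^ 2 := by rw [a0, b0]
  have hn : y 0 * starRingEnd ℂ (y 0) = z 0 * starRingEnd ℂ (z 0) := by
    rw [Complex.mul_conj, Complex.mul_conj, Complex.normSq_apply, Complex.normSq_apply]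
    congr 1
    linear_combination c0
  have hcz : starRingEnd ℂ (z 0) ≠ 0 := by
    simpa using hz0
  have hy0 : y 0 ≠ 0 := by
    intro h
    rw [h] at hn
    simp only [zero_mul] at hn
    exact (mul_ne_zero hz0 hcz) hn.symm
  have hcy : starRingEnd ℂ (y 0) ≠ 0 := by
    simpa using hy0
  have key : ∀ i : Fin 5, starRingEnd ℂ (y 0) * y i = starRingEnd ℂ (z 0) * z i →
      y i = (y 0 / z 0) * z i := by
    intro i h
    rw [div_mul_eq_mul_div, eq_div_iff hz0]
    apply mul_left_cancel₀ hcy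
    linear_combination z 0 * h - z i * hn
  funext i
  fin_cases i
  · simp [hz0]
  · exact key 1 (by rw [a1, b1])
  · exact key 2 (by rw [a2, b2])
  · exact key 3 (by rw [a3, b3])
  · simp [hy4, hz4]

/-- Pure real algebra: classification of the solutions. -/
theorem classify (a b c d : ℝ) (h1 : a * c + b * d = 0) (h2 : a - c = b + d)
    (h3 : -(5 / 12) * (a - c) = 65 / 36 * (a * d - b * c))
    (h4 : a ^ 2 + b ^ 2 + c ^ 2 + d ^ 2 + 25 / 144 * (a - c) ^ 2 = 1 / 4) :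
    (a = -3 / 13 ∧ b = -3 / 13 ∧ c = 3 / 13 ∧ d = -3 / 13) ∨
    (a = b ∧ d = -c ∧ a - c = 78 / 313 ∧ (a + c) ^ 2 = 17352 / 97969) := by
  have h5 : (c + d) * (a - c + c - d) = 0 := by
    linear_combination h1 + d * h2
  rcases mul_eq_zero.1 h5 with h | h
  · -- d = -c, a = b
    have hd : d = -c := by linarith
    have hb : b = a := by linarith
    subst hd; subst hb
    have h6 : 26 / 3 * (b * c) = b - c := by linarith
    have h7 : ((b - c) + 6 / 13) * ((b - c) - 78 / 313) = 0 := by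
      nlinarith [h4, h6]
    rcases mul_eq_zero.1 h7 with h8 | h8
    · left
      have h9 : (b + c) ^ 2 = 0 := by nlinarith
      have h10 : b + c = 0 := by simpa using h9
      refine ⟨by linarith, by linarith, by linarith, by linarith⟩
    · right
      refine ⟨rfl, rfl, by linarith, by nlinarith⟩
  · -- a = d, b = -c
    have ha : a = d := by linarith
    subst ha
    have hb : b = -c := by linarith
    subst hb
    left
    have h6 : 13 / 3 * (a ^ 2 + c ^ 2) = - (a - c) := by nlinarith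
    have hT : (a ^ 2 + c ^ 2 - 18 / 169) * (a ^ 2 + c ^ 2 + 18 / 25) = 0 := by
      have h7 : a - c = -(13 / 3 * (a ^ 2 + c ^ 2)) := by linarith
      rw [h7] at h4
      linear_combination (1296 / 4225) * h4
    have hT2 : a ^ 2 + c ^ 2 = 18 / 169 := by
      rcases mul_eq_zero.1 hT with h8 | h8
      · linarith
      · exfalso; nlinarith [sq_nonneg a, sq_nonneg c]
    have h8 : a - c = -6 / 13 := by rw [hT2] at h6; linarith
    have h9 : (a + c) ^ 2 = 0 := by nlinarith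
    have h10 : a + c = 0 := by simpa using h9
    refine ⟨by linarith, by linarith, by linarith, by linarith⟩

/-- Fixed lines with `z 4 = 0`: the bivector is one of three. -/
theorem biv_of_fixed {z : Fin 5 → ℂ} (hz : z ∈ unitCone) (h4 : z 4 = 0) {μ : ℂ} (hμ : ‖μ‖ = 1)
    (h : Phi z = μ • z) :
    (l1 z = -3 / 13 ∧ l2 z = -3 / 13 ∧ l3 z = 0 ∧ k1 z = 3 / 13 ∧ k2 z = -3 / 13 ∧
      k3 z = -5 / 26) ∨
    (l1 z = l2 z ∧ k2 z = -k1 z ∧ l3 z = 0 ∧ k3 z = 65 / 626 ∧ l1 z - k1 z = 78 / 313 ∧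
      (l1 z + k1 z) ^ 2 = 17352 / 97969) := by
  have hn := lk_norm hz h4
  have hdot := l_dot_k z
  have e1 := u1_T (kick (65 / 36) z)
  have e2 := u2_T (kick (65 / 36) z)
  have e3 := u3_T (kick (65 / 36) z)
  have e4 := v1_T (kick (65 / 36) z)
  have e5 := v2_T (kick (65 / 36) z)
  have e6 := v3_T (kick (65 / 36) z)
  change l1 (Phi z) + k1 (Phi z) = _ at e1
  change l2 (Phi z) + k2 (Phi z) = _ at e2
  change l3 (Phi z) + k3 (Phi z) = _ at e3
  change l1 (Phi z) - k1 (Phi z) = _ at e4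
  change l2 (Phi z) - k2 (Phi z) = _ at e5
  change l3 (Phi z) - k3 (Phi z) = _ at e6
  rw [h] at e1 e2 e3 e4 e5 e6
  simp only [l1_smul' hμ, l2_smul' hμ, l3_smul' hμ, k1_smul' hμ, k2_smul' hμ, k3_smul' hμ,
    l1_kick, l2_kick, l3_kick] at e1 e2 e3 e4 e5 e6
  have c1 := k1_kick (65 / 36) z
  have c2 := k2_kick (65 / 36) z
  have c3 := k3_kick (65 / 36) z
  generalize k1 (kick (65 / 36) z) = m1 at *
  generalize k2 (kick (65 / 36) z) = m2 at *
  generalize k3 (kick (65 / 36) z) = m3 at *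
  have hm1 : m1 = k1 z := by linarith
  have hm2 : m2 = k2 z := by linarith
  subst hm1 hm2
  have hl3 : l3 z = 0 := by linarith
  have hm3 : m3 = - k3 z := by linarith
  have hk3 : k3 z = 5 / 12 * (l1 z - k1 z) := by linarith
  have hk3' : k3 z = 5 / 12 * (l2 z + k2 z) := by linarith
  subst hm3
  have hlk : l1 z * k1 z + l2 z * k2 z = 0 := by rw [hl3] at hdot; linarith
  -- third component of the Cayley equation
  have hcay : -(5 / 12) * (l1 z - k1 z) = 65 / 36 * (l1 z * k2 z - l2 z * k1 z) := by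
    have hD := den_pos (65 / 36) z
    have hca : 1 + ca (65 / 36) (ll z) = 2 * (1 + (65 / 36) ^ 2 * ll z)⁻¹ :=
      ca_eq1 _ _ (ll_nonneg z)
    have hcb : cb (65 / 36) (ll z) = 65 / 36 * (2 * (1 + (65 / 36) ^ 2 * ll z)⁻¹) := by
      unfold cb; ring
    have hinv : (0:ℝ) < 2 * (1 + (65 / 36) ^ 2 * ll z)⁻¹ := by positivity
    rw [hcb] at c3
    generalize 2 * (1 + (65 / 36 : ℝ) ^ 2 * ll z)⁻¹ = q at *
    have : q * (k3 z + 65 / 36 * (l1 z * k2 z - l2 z * k1 z)) = 0 := by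
      linear_combination -c3 - k3 z * hca
    rcases mul_eq_zero.1 this with h0 | h0
    · exact absurd h0 hinv.ne'
    · linarith
  have hn' : l1 z ^ 2 + l2 z ^ 2 + k1 z ^ 2 + k2 z ^ 2 + 25 / 144 * (l1 z - k1 z) ^ 2 = 1 / 4 := by
    rw [hl3, hk3] at hn
    linarith
  rcases classify _ _ _ _ hlk (by linarith) hcay hn' with ⟨r1, r2, r3, r4⟩ | ⟨r1, r2, r3, r4⟩
  · left
    refine ⟨r1, r2, hl3, r3, r4, ?_⟩
    rw [hk3, r1, r3]; norm_num
  · right
    refine ⟨r1, r2, hl3, ?_, r3, r4⟩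
    rw [hk3, r3]; norm_num

/-- Conversely, such a bivector gives a fixed line. -/
theorem fixed_of_biv {z : Fin 5 → ℂ} (hz : z ∈ unitCone) (h4 : z 4 = 0) (hz0 : z 0 ≠ 0)
    (hl : l1 z = l2 z) (hk : k2 z = - k1 z) (hl3 : l3 z = 0)
    (hk3 : k3 z = 5 / 12 * (l1 z - k1 z))
    (hc : 5 / 12 * (l1 z - k1 z) = 65 / 18 * (l1 z * k1 z)) :
    ∃ μ : ℂ, Phi z = μ • z := by
  have hD := den_pos (65 / 36) z
  have hca : ca (65 / 36) (ll z) = 1 - 65 / 36 * ll z * cb (65 / 36) (ll z) :=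
    ca_eq2 _ _ (ll_nonneg z)
  have hca2 : 65 / 36 * (1 + ca (65 / 36) (ll z)) = cb (65 / 36) (ll z) :=
    ca_eq3 _ _ (ll_nonneg z)
  have hll : ll z = 2 * l1 z ^ 2 := by unfold ll; rw [hl3, ← hl]; ring
  have m1 : k1 (kick (65 / 36) z) = k1 z := by
    rw [k1_kick, hca, hll, hl3, ← hl, hk3]
    linear_combination (cb (65 / 36) (2 * l1 z ^ 2) * l1 z) * hc
  have m2 : k2 (kick (65 / 36) z) = k2 z := by
    rw [k2_kick, hca, hll, hl3, hk, hk3]
    linear_combination (-cb (65 / 36) (2 * l1 z ^ 2) * l1 z) * hc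
  have m3 : k3 (kick (65 / 36) z) = - k3 z := by
    rw [k3_kick, hk3, ← hl, hk, hc]
    linear_combination 2 * (l1 z * k1 z) * hca2
  have e1 := u1_T (kick (65 / 36) z)
  have e2 := u2_T (kick (65 / 36) z)
  have e3 := u3_T (kick (65 / 36) z)
  have e4 := v1_T (kick (65 / 36) z)
  have e5 := v2_T (kick (65 / 36) z)
  have e6 := v3_T (kick (65 / 36) z)
  change l1 (Phi z) + k1 (Phi z) = _ at e1
  change l2 (Phi z) + k2 (Phi z) = _ at e2
  change l3 (Phi z) + k3 (Phi z) = _ at e3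
  change l1 (Phi z) - k1 (Phi z) = _ at e4
  change l2 (Phi z) - k2 (Phi z) = _ at e5
  change l3 (Phi z) - k3 (Phi z) = _ at e6
  simp only [l1_kick, l2_kick, l3_kick, m1, m2, m3] at e1 e2 e3 e4 e5 e6
  have hPhi : Phi z ∈ unitCone := by
    have := Lift.mapsTo_cone 1 z hz
    rwa [Lift_one] at this
  have hPhi4 : Phi z 4 = 0 := by
    change act T (kick (65 / 36) z) 4 = 0
    rw [actT_4, kick_4, h4]
  refine ⟨Phi z 0 / z 0, eq_smul_of_biv hPhi hz hPhi4 h4 hz0 ?_ ?_ ?_ ?_ ?_ ?_⟩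
  · linarith
  · linarith
  · linarith
  · linarith
  · linarith
  · linarith

end Crest.Agent.R205.Ck
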