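import Crest.Agent.R205.CkKick

set_option autoImplicit false

namespace Crest.Agent.R205.Ck

open Crest.GeometryTopology.Quadric

/-- Action of a real matrix on complex vectors. -/
noncomputable def act (M : Matrix (Fin 5) (Fin 5) ℝ) (z : Fin 5 → ℂ) : Fin 5 → ℂ :=
  fun i => ∑ j, (M i j : ℂ) * z j

theorem act_smul (M : Matrix (Fin 5) (Fin 5) ℝ) (c : ℂ) (z : Fin 5 → ℂ) :
    act M (c • z) = c • act M z := by
  funext i
  simp only [act, Pi.smul_apply, smul_eq_mul, Finset.mul_sum]
  refine Finset.sum_congr rfl fun j _ => by ring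

theorem act_add (M : Matrix (Fin 5) (Fin 5) ℝ) (u v : Fin 5 → ℂ) :
    act M (u + v) = act M u + act M v := by
  funext i
  simp only [act, Pi.add_apply, mul_add, Finset.sum_add_distrib]

theorem act_smulR (M : Matrix (Fin 5) (Fin 5) ℝ) (c : ℝ) (z : Fin 5 → ℂ) :
    act M (c • z) = c • act M z := by
  funext i
  simp only [act, Pi.smul_apply, Complex.real_smul, Finset.mul_sum]
  refine Finset.sum_congr rfl fun j _ => by ring

theorem act_mul (M N : Matrix (Fin 5) (Fin 5) ℝ) (z : Fin 5 → ℂ) :
    act (M * N) z = act M (act N z) := by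
  funext i
  simp only [act, Matrix.mul_apply, Finset.mul_sum, Complex.ofReal_sum, Finset.sum_mul,
    Complex.ofReal_mul]
  rw [Finset.sum_comm]
  refine Finset.sum_congr rfl fun j _ => Finset.sum_congr rfl fun k _ => by ring

theorem act_one (z : Fin 5 → ℂ) : act 1 z = z := by
  funext i
  simp only [act, Matrix.one_apply]
  rw [Finset.sum_eq_single i]
  · simp
  · intro j _ hj
    rw [if_neg (Ne.symm hj)]; simp
  · intro h; exact absurd (Finset.mem_univ i) h

theorem herm_act (M : Matrix (Fin 5) (Fin 5) ℝ) (u w : Fin 5 → ℂ) :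
    herm (act M u) w = herm u (act M.transpose w) := by
  simp only [act, herm, map_sum, Finset.sum_mul, Finset.mul_sum, map_mul, Complex.conj_ofReal,
    Matrix.transpose_apply]
  rw [Finset.sum_comm]
  refine Finset.sum_congr rfl fun j _ => Finset.sum_congr rfl fun k _ => by ring

theorem bil_act (M : Matrix (Fin 5) (Fin 5) ℝ) (u w : Fin 5 → ℂ) :
    ∑ j, act M u j * w j = ∑ j, u j * act M.transpose w j := by
  simp only [act, Finset.sum_mul, Finset.mul_sum, Matrix.transpose_apply]
  rw [Finset.sum_comm]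
  refine Finset.sum_congr rfl fun j _ => Finset.sum_congr rfl fun k _ => by ring

theorem herm_add_left (u v w : Fin 5 → ℂ) : herm (u + v) w = herm u w + herm v w := by
  simp [herm, add_mul, Finset.sum_add_distrib]
theorem herm_add_right (u v w : Fin 5 → ℂ) : herm u (v + w) = herm u v + herm u w := by
  simp [herm, mul_add, Finset.sum_add_distrib]
theorem herm_smul_right (r : ℝ) (u w : Fin 5 → ℂ) : herm u (r • w) = r • herm u w := by
  unfold herm
  rw [Finset.smul_sum]
  refine Finset.sum_congr rfl fun j _ => ?_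
  simp only [Pi.smul_apply, Complex.real_smul]; ring
theorem herm_conj (u w : Fin 5 → ℂ) : herm u w = starRingEnd ℂ (herm w u) := by
  simp only [herm, map_sum, map_mul, Complex.conj_conj]
  refine Finset.sum_congr rfl fun j _ => by ring
theorem herm_neg_right (u w : Fin 5 → ℂ) : herm u (-w) = - herm u w := by
  simp [herm]

theorem act_neg (M : Matrix (Fin 5) (Fin 5) ℝ) (z : Fin 5 → ℂ) : act (-M) z = - act M z := by
  funext i; simp [act]

theorem act_mem {M : Matrix (Fin 5) (Fin 5) ℝ} (hM : M.transpose * M = 1) {z : Fin 5 → ℂ}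
    (hz : z ∈ unitCone) : act M z ∈ unitCone := by
  obtain ⟨h1, h2⟩ := hz
  constructor
  · rw [herm_act, ← act_mul, hM, act_one, h1]
  · have : ∑ j, act M z j * act M z j = 0 := by
      rw [bil_act, ← act_mul, hM, act_one]
      simpa [pow_two] using h2
    simpa [pow_two] using this

theorem act_tangent {M : Matrix (Fin 5) (Fin 5) ℝ} {x w : Fin 5 → ℂ}
    (hw : w ∈ coneTangent (act M x)) : act M.transpose w ∈ coneTangent x := by
  obtain ⟨h1, h2⟩ := hw
  refine ⟨?_, ?_⟩
  · rw [← herm_act]; exact h1
  · rw [← bil_act]; exact h2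

structure OPath where
  P : ℝ → Matrix (Fin 5) (Fin 5) ℝ
  B : Matrix (Fin 5) (Fin 5) ℝ
  smooth : ∀ i j, ContDiff ℝ (⊤ : ℕ∞) (fun t => P t i j)
  orth : ∀ t, (P t).transpose * P t = 1
  skew : B.transpose = -B
  deriv : ∀ t i j, HasDerivAt (fun s => P s i j) ((B * P t) i j) t
  zero : P 0 = 1

theorem contDiff_act {E : Type*} [NormedAddCommGroup E] [NormedSpace ℝ E]
    {M : E → Matrix (Fin 5) (Fin 5) ℝ} {f : E → Fin 5 → ℂ}
    (hM : ∀ i j, ContDiff ℝ (⊤ : ℕ∞) (fun t => M t i j)) (hf : ContDiff ℝ (⊤ : ℕ∞) f) :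
    ContDiff ℝ (⊤ : ℕ∞) (fun t => act (M t) (f t)) := by
  rw [contDiff_pi]
  intro i
  unfold act
  refine ContDiff.sum fun j _ => ?_
  exact (Complex.ofRealCLM.contDiff.comp (hM i j)).mul ((contDiff_apply ℝ ℂ j).comp hf)

theorem contDiff_qB (B : Matrix (Fin 5) (Fin 5) ℝ) :
    ContDiff ℝ (⊤ : ℕ∞) (fun x : Fin 5 → ℂ => (herm (act B x) x).im) := by
  refine ContDiff.comp (g := fun c : ℂ => c.im) (Complex.imCLM.contDiff) ?_
  unfold herm
  refine ContDiff.sum fun j _ => ?_
  have h1 : ContDiff ℝ (⊤ : ℕ∞) (fun x : Fin 5 → ℂ => act B x) :=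
    contDiff_act (M := fun _ => B) (fun _ _ => contDiff_const) contDiff_id
  have h2 : ContDiff ℝ (⊤ : ℕ∞) (fun x : Fin 5 → ℂ => starRingEnd ℂ (act B x j)) :=
    Complex.conjCLE.contDiff.comp ((contDiff_apply ℝ ℂ j).comp h1)
  exact h2.mul (contDiff_apply ℝ ℂ j)

theorem fderiv_qB {B : Matrix (Fin 5) (Fin 5) ℝ} (hB : B.transpose = -B) (y w : Fin 5 → ℂ) :
    fderiv ℝ (fun x : Fin 5 → ℂ => (herm (act B x) x).im) y w =
      2 * (herm (act B y) w).im := by
  apply fderiv_eq_of_line
  · exact ((contDiff_qB B).differentiable (by simp)).differentiableAt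
  · have key : (herm (act B w) y).im = (herm (act B y) w).im := by
      rw [herm_act, hB, act_neg, herm_neg_right, herm_conj w]
      simp
    have e : (fun s : ℝ => (herm (act B (y + s • w)) (y + s • w)).im) =
        fun s => (herm (act B y) y).im + s * (2 * (herm (act B y) w).im)
          + s ^ 2 * (herm (act B w) w).im := by
      funext s
      rw [act_add, act_smulR, herm_add_left, herm_add_right, herm_add_right,
        herm_smul_left, herm_smul_right, herm_smul_left, herm_smul_right]
      simp only [Complex.add_im, Complex.smul_im, smul_eq_mul, key]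
      ring
    rw [e]
    exact quad_deriv _ _ _

theorem hasDerivAt_act {M : ℝ → Matrix (Fin 5) (Fin 5) ℝ} {M' : Matrix (Fin 5) (Fin 5) ℝ}
    {f : ℝ → Fin 5 → ℂ} {f' : Fin 5 → ℂ} {t : ℝ}
    (hM : ∀ i j, HasDerivAt (fun s => M s i j) (M' i j) t) (hf : HasDerivAt f f' t) :
    HasDerivAt (fun s => act (M s) (f s)) (act M' (f t) + act (M t) f') t := by
  rw [hasDerivAt_pi]
  intro i
  have e : (act M' (f t) + act (M t) f') i = ∑ j, ((M' i j : ℂ) * f t j + (M t i j : ℂ) * f' j) := by
    simp [act, Finset.sum_add_distrib]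
  rw [e]
  unfold act
  refine HasDerivAt.fun_sum fun j _ => ?_
  have h1 : HasDerivAt (fun s => ((M s i j : ℝ) : ℂ)) ((M' i j : ℝ) : ℂ) t :=
    (hM i j).ofReal_comp
  exact h1.mul ((hasDerivAt_pi.1 hf) j)

/-- Composition of a Hamiltonian lift with an orthogonal one-parameter group. -/
noncomputable def twist (O : OPath) (M : HamiltonianConeLift) : HamiltonianConeLift where
  Ψ := fun p => act (O.P p.1) (M.Ψ p)
  H := fun p => (herm (act O.B p.2) p.2).im + M.H (p.1, act (O.P p.1).transpose p.2)
  smooth_Ψ := contDiff_act (fun i j => (O.smooth i j).comp contDiff_fst) M.smooth_Ψ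
  smooth_H := by
    refine ((contDiff_qB O.B).comp contDiff_snd).add (M.smooth_H.comp ?_)
    exact contDiff_fst.prodMk
      (contDiff_act (M := fun p : ℝ × (Fin 5 → ℂ) => (O.P p.1).transpose)
        (fun i j => (O.smooth j i).comp contDiff_fst) contDiff_snd)
  mapsTo_cone := fun t z hz => act_mem (O.orth t) (M.mapsTo_cone t z hz)
  compatible := fun t z hz c hc => by
    obtain ⟨c', h⟩ := M.compatible t z hz c hc
    exact ⟨c', by simp only [h, act_smul]⟩
  start := fun z hz => by
    obtain ⟨c, h⟩ := M.start z hz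
    exact ⟨c, by simp only [h, O.zero, act_one]⟩
  invariant := fun t z hz c hc => by
    have ht : ((O.P t).transpose).transpose * (O.P t).transpose = 1 := by
      rw [Matrix.transpose_transpose]; exact mul_eq_one_comm.1 (O.orth t)
    have h1 := M.invariant t _ (act_mem ht hz) c hc
    simp only [act_smul] at h1 ⊢
    rw [h1]
    congr 1
    have h2 : herm (c • act O.B z) (c • z) = herm (act O.B z) z := by
      unfold herm
      refine Finset.sum_congr rfl fun j _ => ?_
      have : starRingEnd ℂ c * c = 1 := by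
        rw [mul_comm, Complex.mul_conj, Complex.normSq_eq_norm_sq, hc]; simp
      simp only [Pi.smul_apply, smul_eq_mul, map_mul]
      linear_combination (starRingEnd ℂ (act O.B z j) * z j) * this
    rw [h2]
  hamilton := by
    intro t ht z hz w hw
    simp only at hw ⊢
    have hM := M.hamilton t ht z hz _ (act_tangent hw)
    set x := M.Ψ (t, z) with hx
    set y := act (O.P t) x with hy
    have hdM : HasDerivAt (fun s : ℝ => M.Ψ (s, z)) (_root_.deriv (fun s : ℝ => M.Ψ (s, z)) t) t := by
      have : ContDiff ℝ (⊤ : ℕ∞) (fun s : ℝ => M.Ψ (s, z)) :=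
        M.smooth_Ψ.comp (contDiff_prodMk_left z)
      exact (this.differentiable (by simp)).differentiableAt.hasDerivAt
    have hd := hasDerivAt_act (M := O.P) (M' := O.B * O.P t) (O.deriv t) hdM
    rw [hd.deriv, ← hx]
    have hy' : act (O.P t).transpose y = x := by
      rw [hy, ← act_mul, O.orth, act_one]
    have hHd : DifferentiableAt ℝ (fun x' : Fin 5 → ℂ => M.H (t, x')) x := by
      have : ContDiff ℝ (⊤ : ℕ∞) (fun x' : Fin 5 → ℂ => M.H (t, x')) :=
        M.smooth_H.comp (contDiff_prodMk_right t)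
      exact (this.differentiable (by simp)).differentiableAt
    have hcomp : ContDiff ℝ (⊤ : ℕ∞) (fun x' : Fin 5 → ℂ => M.H (t, act (O.P t).transpose x')) := by
      refine M.smooth_H.comp (contDiff_const.prodMk ?_)
      exact contDiff_act (M := fun _ => (O.P t).transpose) (fun _ _ => contDiff_const) contDiff_id
    have hsum : fderiv ℝ (fun x' : Fin 5 → ℂ => (herm (act O.B x') x').im
          + M.H (t, act (O.P t).transpose x')) y w =
        fderiv ℝ (fun x' : Fin 5 → ℂ => (herm (act O.B x') x').im) y w +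
        fderiv ℝ (fun x' : Fin 5 → ℂ => M.H (t, act (O.P t).transpose x')) y w := by
      rw [fderiv_fun_add]
      · rfl
      · exact ((contDiff_qB O.B).differentiable (by simp)).differentiableAt
      · exact (hcomp.differentiable (by simp)).differentiableAt
    rw [hsum, fderiv_qB O.skew]
    have hline : fderiv ℝ (fun x' : Fin 5 → ℂ => M.H (t, act (O.P t).transpose x')) y w =
        fderiv ℝ (fun x' : Fin 5 → ℂ => M.H (t, x')) x (act (O.P t).transpose w) := by
      apply fderiv_eq_of_line
      · exact (hcomp.differentiable (by simp)).differentiableAt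
      · have h := hHd.hasFDerivAt.hasLineDerivAt (act (O.P t).transpose w)
        unfold HasLineDerivAt at h
        simpa only [act_add, act_smulR, hy'] using h
    rw [hline, ← hM, herm_add_left, act_mul, ← hy, Complex.add_im, herm_act (O.P t)]
    ring

end Crest.Agent.R205.Ck
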